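import Vale.Agent.P031.Collision.Residual

/-!
# P031 Q2, section 7: all errors are smaller than the slack

With `T = 2 ^ K` every error is at most `T ^ 19 + L / T ^ 10` up to a constant, and
`T ^ 250 ≤ L`, so the error is far below `η L = L / T ^ 6`.
-/

open scoped Classical
noncomputable section

namespace Vale.Agent.P031.Collision

open Finset Real

/-- The exponent lost on one signature. -/
def sigErr (P : Params) (κ C : ℝ) : ℝ :=
  2 * (P.K' + 1) * (κ + 2 * (P.K' + 1))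
    + (P.K' + 1) ^ 2 * (2 * P.Tb + 2 * P.D + C) + C * (P.K' + 1) * gridN P
    + P.theta * (gridN P * P.D) * (P.K' + 1) ^ 2

/-- The exponent lost in choosing signature and common primes. -/
def choiceErr (P : Params) (C : ℝ) : ℝ :=
  2 * ((P.K' : ℝ) + 1) + 2 * (P.K' : ℝ) * log (gridN P) + (P.K' : ℝ) * (C + log P.L)
    + 3 * log P.L + C

/-- The loss of one step. -/
def stepErr (P : Params) (C : ℝ) : ℝ :=
  C * log P.L + 3 * (P.D + 3 * log P.L + 1) + 3 * log P.L

/-- The facts used by the final count. -/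
structure Usable (P : Params) (C : ℝ) : Prop where
  big : Big P
  two : 2 ≤ P.L
  lowTb : 3 * log P.L + 1 ≤ P.Tb
  topTb : P.Tb + P.D ≤ P.L
  step_nonneg : 0 ≤ stepErr P C
  low : 0 ≤ P.L - 3 * log P.L
  total : sigErr P (stepErr P C) C + choiceErr P C - P.eta * P.L ≤ -((P.L : ℝ) ^ (0.9 : ℝ))

theorem err_le (P : Params) {C T : ℝ} (hC : 0 ≤ C) (hK1 : 1 ≤ P.K) (hT : T = 2 ^ P.K)
    (hLpos : 0 < P.L) (hT1 : 1 ≤ T) (hT250 : T ^ 250 ≤ P.L) (hD : P.D = P.L / T ^ 18)
    (hTb : P.Tb = P.L / T ^ 12) (hth : P.theta = 1 / T ^ 20) (hN : (gridN P : ℝ) = T ^ 18 + 1)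
    (hlog : log P.L ≤ 1000 * T) (hl0 : 0 ≤ log P.L)
    (hκ : stepErr P C ≤ (1000 * C + 12012) * T + 3 * P.D) (hκ0 : 0 ≤ stepErr P C) :
    sigErr P (stepErr P C) C + choiceErr P C ≤ 200000 * (C + 40) * (P.L / T ^ 10) := by
  have hT0 : 0 < T := by linarith
  have hKT : (P.K : ℝ) ≤ T := by
    have : P.K ≤ 2 ^ P.K := Nat.lt_two_pow_self.le
    rw [hT]; exact_mod_cast this
  have hk : (P.K' : ℝ) + 1 ≤ 21 * T := by
    unfold Params.K'; push_cast; linarith
  have hk1 : 0 ≤ (P.K' : ℝ) := Nat.cast_nonneg _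
  have hD0 : 0 ≤ P.D := by rw [hD]; positivity
  have hTbpos : 0 ≤ P.Tb := by rw [hTb]; positivity
  set w : ℝ := P.L / T ^ 10 with hw
  have hw0 : 0 ≤ w := by positivity
  have hle : ∀ n : ℕ, 10 ≤ n → P.L / T ^ n ≤ w := fun n hn =>
    div_le_div_of_nonneg_left hLpos.le (by positivity) (pow_le_pow_right₀ hT1 hn)
  have hTle : ∀ n : ℕ, n ≤ 30 → T ^ n ≤ w := by
    intro n hn
    rw [hw, le_div_iff₀ (by positivity), ← pow_add]
    exact le_trans (pow_le_pow_right₀ hT1 (by omega)) hT250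
  have hT2 : T ^ 2 ≤ w := hTle 2 (by norm_num)
  have hTwle : T ≤ w := by simpa using hTle 1 (by norm_num)
  have h1w : 1 ≤ w := hT1.trans hTwle
  have hNw : (gridN P : ℝ) ≤ 2 * T ^ 18 := by
    rw [hN]; linarith [one_le_pow₀ hT1 (n := 18)]
  have hN1 : (1 : ℝ) ≤ gridN P := by rw [hN]; linarith [one_le_pow₀ hT1 (n := 18)]
  have hlogN : log (gridN P) ≤ 19 * T := by
    refine (log_le_log (by linarith) hNw).trans ?_
    rw [log_mul (by norm_num) (by positivity), log_pow, hT, log_pow]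
    have := log_two_lt_d9
    push_cast
    nlinarith
  have hterm1 : 2 * ((P.K' : ℝ) + 1) * (stepErr P C + 2 * ((P.K' : ℝ) + 1))
      ≤ (42 * (1000 * C + 12054) + 126) * w := by
    have h1 : stepErr P C + 2 * ((P.K' : ℝ) + 1) ≤ (1000 * C + 12054) * T + 3 * P.D := by linarith
    refine (mul_le_mul (show 2 * ((P.K' : ℝ) + 1) ≤ 42 * T by linarith) h1 (by positivity)
      (by positivity)).trans ?_
    have h2 : T * P.D ≤ w := by
      rw [hD, mul_div_assoc']
      rw [div_le_iff₀ (by positivity), hw, div_mul_eq_mul_div, le_div_iff₀ (by positivity)]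
      have : T * T ^ 10 ≤ T ^ 18 := by
        rw [← pow_succ']; exact pow_le_pow_right₀ hT1 (by norm_num)
      nlinarith
    calc 42 * T * ((1000 * C + 12054) * T + 3 * P.D)
        = 42 * (1000 * C + 12054) * T ^ 2 + 126 * (T * P.D) := by ring
      _ ≤ 42 * (1000 * C + 12054) * w + 126 * w := by gcongr
      _ = _ := by ring
  have hsq : ((P.K' : ℝ) + 1) ^ 2 ≤ 441 * T ^ 2 := by
    calc ((P.K' : ℝ) + 1) ^ 2 ≤ (21 * T) ^ 2 := by gcongr
      _ = _ := by ring
  have hterm2 : ((P.K' : ℝ) + 1) ^ 2 * (2 * P.Tb + 2 * P.D + C) ≤ 441 * (4 + C) * w := by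
    refine (mul_le_mul_of_nonneg_right hsq (by positivity)).trans ?_
    have h1 : T ^ 2 * P.Tb ≤ w := by
      rw [hTb, hw]; exact le_of_eq (by field_simp)
    have h2 : T ^ 2 * P.D ≤ w := by
      refine le_trans (mul_le_mul_of_nonneg_left ?_ (by positivity)) h1
      rw [hTb, hD]
      exact div_le_div_of_nonneg_left hLpos.le (by positivity)
        (pow_le_pow_right₀ hT1 (by norm_num))
    nlinarith [mul_le_mul_of_nonneg_left hT2 hC]
  have hterm3 : C * ((P.K' : ℝ) + 1) * (gridN P : ℝ) ≤ 42 * C * w := by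
    calc C * ((P.K' : ℝ) + 1) * (gridN P : ℝ) ≤ C * (21 * T) * (2 * T ^ 18) := by gcongr
      _ = 42 * C * T ^ 19 := by ring
      _ ≤ 42 * C * w := by gcongr; exact hTle 19 (by norm_num)
  have hterm4 : P.theta * ((gridN P : ℝ) * P.D) * ((P.K' : ℝ) + 1) ^ 2 ≤ 882 * w := by
    have h1 : (gridN P : ℝ) * P.D ≤ 2 * P.L := by
      refine (mul_le_mul_of_nonneg_right hNw hD0).trans ?_
      rw [hD]; exact le_of_eq (by field_simp)
    have hth0 : 0 ≤ P.theta := by rw [hth]; positivity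
    refine (mul_le_mul (mul_le_mul_of_nonneg_left h1 hth0) hsq (by positivity) (by positivity)).trans ?_
    rw [hth]
    calc 1 / T ^ 20 * (2 * P.L) * (441 * T ^ 2) = 882 * (P.L / T ^ 18) := by field_simp; ring
      _ ≤ 882 * w := by gcongr; exact hle 18 (by norm_num)
  have hterm5 : choiceErr P C ≤ (45000 + 22 * C) * w := by
    unfold choiceErr
    have h1 : 2 * (P.K' : ℝ) * log (gridN P) ≤ 798 * w := by
      calc 2 * (P.K' : ℝ) * log (gridN P) ≤ 42 * T * (19 * T) :=
            mul_le_mul (by linarith) hlogN (log_nonneg hN1) (by positivity)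
        _ = 798 * T ^ 2 := by ring
        _ ≤ 798 * w := by gcongr
    have h2 : (P.K' : ℝ) * (C + log P.L) ≤ (21 * C + 21000) * w := by
      calc (P.K' : ℝ) * (C + log P.L) ≤ 21 * T * (C * T + 1000 * T) := by
            gcongr
            · linarith
            · exact le_mul_of_one_le_right hC hT1
        _ = (21 * C + 21000) * T ^ 2 := by ring
        _ ≤ (21 * C + 21000) * w := by gcongr
    nlinarith
  have hsum : sigErr P (stepErr P C) C + choiceErr P C ≤ 200000 * (C + 40) * w := by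
    unfold sigErr
    nlinarith
  exact hsum

theorem pow_le {L T : ℝ} (hT1 : 1 ≤ T) (hLpos : 0 < L) (hL40 : (2 : ℝ) ^ 40 ≤ L)
    (hT250 : T ^ 250 ≤ L) : 2 * L ^ (0.9 : ℝ) ≤ L / T ^ 6 := by
  have hT0 : 0 < T := by linarith
  have hpow : 2 * L ^ (0.9 : ℝ) ≤ L / T ^ 6 := by
    rw [le_div_iff₀ (by positivity)]
    have h1 : T ^ 6 ≤ L ^ (6 / 250 : ℝ) := by
      have h2 : (T ^ 250 : ℝ) ^ (6 / 250 : ℝ) ≤ L ^ (6 / 250 : ℝ) :=
        rpow_le_rpow (by positivity) hT250 (by norm_num)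
      rw [← rpow_natCast T 250, ← rpow_mul hT0.le] at h2
      refine le_trans (le_of_eq ?_) h2
      rw [show (((250 : ℕ) : ℝ) * (6 / 250)) = ((6 : ℕ) : ℝ) by norm_num, rpow_natCast]
    have h3 : (2 : ℝ) ≤ L ^ (0.05 : ℝ) := by
      have := rpow_le_rpow (by norm_num) hL40 (show (0 : ℝ) ≤ 0.05 by norm_num)
      rw [← rpow_natCast, ← rpow_mul (by norm_num)] at this
      refine le_trans ?_ this
      norm_num
    calc 2 * L ^ (0.9 : ℝ) * T ^ 6
        ≤ L ^ (0.05 : ℝ) * L ^ (0.9 : ℝ) * L ^ (6 / 250 : ℝ) := by gcongr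
      _ = L ^ (0.05 + 0.9 + 6 / 250 : ℝ) := by rw [rpow_add hLpos, rpow_add hLpos]
      _ ≤ L ^ (1 : ℝ) := rpow_le_rpow_of_exponent_le (by linarith) (by norm_num)
      _ = L := rpow_one _
  exact hpow

theorem exists_usable (C : ℝ) (hC : 0 ≤ C) :
    ∃ L0 : ℝ, ∀ P : Params, L0 ≤ P.L → P.Admissible → Usable P C := by
  set A : ℝ := 200000 * (C + 40) with hA
  have hA1 : 1 ≤ A := by rw [hA]; linarith
  obtain ⟨k0, hk0⟩ := pow_unbounded_of_one_lt (4 * A + 4) (show (1 : ℝ) < 2 by norm_num)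
  refine ⟨max (exp (1000 * ((k0 : ℝ) + 1))) (2 ^ 40), ?_⟩
  intro P hL hP
  obtain ⟨hK1, hKle, hKge⟩ := hP
  have hL40 : (2 : ℝ) ^ 40 ≤ P.L := le_trans (le_max_right _ _) hL
  have hL1 : (2 : ℝ) ≤ P.L := le_trans (by norm_num) hL40
  have hLpos : 0 < P.L := by linarith
  have hKk0 : k0 ≤ P.K := by
    have h1 : 1000 * ((k0 : ℝ) + 1) ≤ log P.L := by
      rw [le_log_iff_exp_le hLpos]
      exact le_trans (le_max_left _ _) hL
    have h2 : (k0 : ℝ) ≤ P.K := by linarith only [h1, hKge]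
    exact_mod_cast h2
  set T : ℝ := 2 ^ P.K with hT
  have hT4 : 4 * A + 4 ≤ T := hk0.le.trans (pow_le_pow_right₀ (by norm_num) hKk0)
  have hT1 : (1 : ℝ) ≤ T := by linarith
  have hT0 : 0 < T := by linarith
  have hKT : (P.K : ℝ) ≤ T := by
    have : P.K ≤ 2 ^ P.K := Nat.lt_two_pow_self.le
    rw [hT]; exact_mod_cast this
  have hK0 : (0 : ℝ) ≤ P.K := Nat.cast_nonneg _
  have hl0 : 0 ≤ log P.L := log_nonneg (by linarith)
  have hlog : log P.L ≤ 1000 * T := by linarith only [hKge, hKT]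
  have hT250 : T ^ 250 ≤ P.L := by
    rw [hT, ← pow_mul, ← log_le_log_iff (by positivity) hLpos, log_pow]
    have := log_two_lt_d9
    have h2 : (0 : ℝ) ≤ log 2 := log_nonneg (by norm_num)
    push_cast
    nlinarith only [this, h2, hKle, hK0]
  have hD : P.D = P.L / T ^ 18 := by
    unfold Params.D Params.J; rw [hT, ← pow_mul, mul_comm P.K]; push_cast; rfl
  have hTb : P.Tb = P.L / T ^ 12 := by
    unfold Params.Tb; rw [hT, ← pow_mul, mul_comm P.K]
  have hTe : P.Te = P.L / T ^ 17 := by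
    unfold Params.Te; rw [hT, ← pow_mul, mul_comm P.K]
  have hth : P.theta = 1 / T ^ 20 := by
    unfold Params.theta; rw [hT, ← pow_mul, mul_comm P.K]
  have heta : P.eta = 1 / T ^ 6 := by
    unfold Params.eta; rw [hT, ← pow_mul, mul_comm P.K]
  have hN : (gridN P : ℝ) = T ^ 18 + 1 := by
    unfold gridN Params.J; rw [hT, ← pow_mul, mul_comm P.K]; push_cast; rfl
  -- basic sizes
  set w : ℝ := P.L / T ^ 10 with hw
  have hw0 : 0 ≤ w := by positivity
  have hTw : T ^ 30 ≤ w := by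
    rw [hw, le_div_iff₀ (by positivity), ← pow_add]
    exact le_trans (pow_le_pow_right₀ hT1 (by norm_num)) hT250
  have hTle : ∀ n : ℕ, n ≤ 30 → T ^ n ≤ w := fun n hn =>
    (pow_le_pow_right₀ hT1 hn).trans hTw
  have hT2 : T ^ 2 ≤ w := hTle 2 (by norm_num)
  have hTwle : T ≤ w := by simpa using hTle 1 (by norm_num)
  have hwT : w * T ^ 4 = P.L / T ^ 6 := by
    rw [hw]; field_simp
  have hD1 : 1 ≤ P.D := by
    rw [hD, le_div_iff₀ (by positivity), one_mul]
    exact le_trans (pow_le_pow_right₀ hT1 (by norm_num)) hT250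
  have hD0 : 0 ≤ P.D := by linarith
  have hk : (P.K' : ℝ) + 1 ≤ 21 * T := by
    unfold Params.K'; push_cast; linarith
  have hk1 : 0 ≤ (P.K' : ℝ) := Nat.cast_nonneg _
  have hTbpos : 0 < P.Tb := by rw [hTb]; positivity
  have hTbbig : T ^ 200 ≤ P.Tb := by
    rw [hTb, le_div_iff₀ (by positivity), ← pow_add]
    exact le_trans (pow_le_pow_right₀ hT1 (by norm_num)) hT250
  have hT200 : 4000 * T ≤ T ^ 200 := by
    have h1 : 4000 ≤ T := by linarith only [hT4, hA, hC]
    calc 4000 * T ≤ T * T := by gcongr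
      _ = T ^ 2 := by ring
      _ ≤ T ^ 200 := pow_le_pow_right₀ hT1 (by norm_num)
  have hlow : 3 * log P.L + 1 ≤ P.Tb := by linarith only [hlog, hT1, hTbbig, hT200]
  have htopTb : P.Tb + P.D ≤ P.L := by
    have h1 : P.Tb ≤ P.L / 2 := by
      rw [hTb]
      exact div_le_div_of_nonneg_left hLpos.le two_pos
        (le_trans (by linarith only [hT4, hA1]) (le_self_pow₀ hT1 (by norm_num)))
    have h2 : P.D ≤ P.L / 2 := by
      rw [hD]
      exact div_le_div_of_nonneg_left hLpos.le two_pos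
        (le_trans (by linarith only [hT4, hA1]) (le_self_pow₀ hT1 (by norm_num)))
    linarith only [h1, h2]
  have hbig : Big P := by
    refine ⟨hD1, hTbpos, ?_, ?_, ?_, hl0⟩
    · rw [hTe, hTb]
      exact div_le_div_of_nonneg_left hLpos.le (by positivity)
        (pow_le_pow_right₀ hT1 (by norm_num))
    · have : (gridN P : ℝ) * P.D = P.L + P.D := by rw [hN, hD]; field_simp
      linarith only [this, hD1, hTbpos]
    · have hK'L : (P.K' : ℝ) + 1 ≤ exp P.L := by
        have h1 : 21 * T ≤ P.L := by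
          have := hTle 2 (by norm_num)
          have h3 : T * T ≤ w := by rw [← pow_two]; exact this
          have h4 : w ≤ P.L := div_le_self hLpos.le (one_le_pow₀ hT1)
          nlinarith only [h3, h4, hT4, hA1, hA, hC]
        linarith only [add_one_le_exp P.L, h1, hk]
      have e1 : exp (P.L + 1) ≤ exp (2 * P.L) := exp_le_exp.2 (by linarith only [hL1])
      calc (P.K' : ℝ) * exp (P.L + 1) + exp (2 * P.L)
          ≤ (P.K' : ℝ) * exp (2 * P.L) + exp (2 * P.L) := by gcongr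
        _ = ((P.K' : ℝ) + 1) * exp (2 * P.L) := by ring
        _ ≤ exp P.L * exp (2 * P.L) := by gcongr
        _ = exp (3 * P.L) := by rw [← exp_add]; ring_nf
  have hκ : stepErr P C ≤ (1000 * C + 12012) * T + 3 * P.D := by
    unfold stepErr
    nlinarith only [mul_le_mul_of_nonneg_left hlog hC, hlog, hT1]
  have hκ0 : 0 ≤ stepErr P C := by
    unfold stepErr; positivity
  refine ⟨hbig, hL1, hlow, htopTb, hκ0, ?_, ?_⟩
  · linarith only [hlow, htopTb, hD0]
  -- the total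
  have hsum : sigErr P (stepErr P C) C + choiceErr P C ≤ A * w :=
    err_le P hC hK1 hT hLpos hT1 hT250 hD hTb hth hN hlog hl0 hκ hκ0
  have hA4 : A * w ≤ P.L / T ^ 6 / 4 := by
    rw [← hwT]
    have : 4 * A ≤ T ^ 4 := le_trans (by linarith only [hT4]) (le_self_pow₀ hT1 (by norm_num))
    nlinarith only [this, hw0]
  have hpow : 2 * P.L ^ (0.9 : ℝ) ≤ P.L / T ^ 6 := pow_le hT1 hLpos hL40 hT250
  have : P.eta * P.L = P.L / T ^ 6 := by rw [heta]; ring
  have h09 : (0 : ℝ) ≤ P.L ^ (0.9 : ℝ) := by positivity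
  linarith only [hsum, hA4, hpow, this, h09]

end Vale.Agent.P031.Collision
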