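import Vale.Agent.P031.Collision.Residual
import Vale.Agent.P031.Brun

/-!
# P031 Q2, section 7: sieve constants, common primes, top primes
-/

open scoped Classical
noncomputable section

namespace Vale.Agent.P031.Collision

open Finset Real

theorem sieveBounds_exists : ∃ C : ℝ, 0 ≤ C ∧ SieveBounds C := by
  obtain ⟨c1, h1, hw2⟩ := brun_weight2
  obtain ⟨c2, -, hw3⟩ := brun_weight3
  obtain ⟨c3, -, hc2⟩ := brun_count2
  obtain ⟨c4, -, hc3⟩ := brun_count3
  refine ⟨max (max c1 c2) (max c3 c4), le_trans h1 ((le_max_left _ _).trans (le_max_left _ _)),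
    ?_, ?_, ?_, ?_⟩
  · intro L s' s A S hL h0 hs hA hS
    refine (hw2 L s' s A S hL h0 hs hA hS).trans ?_
    gcongr
    · linarith
    · exact (le_max_left _ _).trans (le_max_left _ _)
  · intro L s' s A B S hL h0 hs hA hB hAB hS
    refine (hw3 L s' s A B S hL h0 hs hA hB hAB fun r hr => ?_).trans ?_
    · obtain ⟨a1, a2, ⟨a3, a4⟩, a5, a6⟩ := hS r hr
      exact ⟨a1, a2, a3, a4, a5, a6⟩
    gcongr
    · linarith
    · exact (le_max_right _ _).trans (le_max_left _ _)
  · intro L s' s A S X hL h0 hs hA hX hr' hS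
    refine (hc2 L s' s A S X hL h0 hs hA hX fun r hr => ?_).trans ?_
    · obtain ⟨a1, a2, a3, a4⟩ := hS r hr
      exact ⟨a1, a2, a3, a4, hr' r hr⟩
    gcongr
    · linarith
    · exact (le_max_left _ _).trans (le_max_right _ _)
  · intro L s' s A B S X hL h0 hs hA hB hAB hX hr' hS
    refine (hc3 L s' s A B S X hL h0 hs hA hB hAB hX fun r hr => ?_).trans ?_
    · obtain ⟨a1, a2, ⟨a3, a4⟩, a5, a6⟩ := hS r hr
      exact ⟨a1, a2, a3, a4, a5, a6, hr' r hr⟩
    gcongr
    · linarith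
    · exact (le_max_right _ _).trans (le_max_right _ _)

theorem sum_subsets_le {ι : Type*} [DecidableEq ι] (x : ι → ℝ) (U : Finset ι) :
    (∀ i ∈ U, 0 ≤ x i) → ∀ k : ℕ,
      ∑ C ∈ U.powerset.filter (fun C => C.card ≤ k), ∏ i ∈ C, x i ≤ (1 + ∑ i ∈ U, x i) ^ k := by
  induction U using Finset.induction_on with
  | empty =>
    intro _ k
    simp [filter_singleton]
  | insert a U ha ih =>
    intro hx k
    have hxa : 0 ≤ x a := hx a (mem_insert_self _ _)
    have hxU : ∀ i ∈ U, 0 ≤ x i := fun i hi => hx i (mem_insert_of_mem hi)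
    have hs : 0 ≤ ∑ i ∈ U, x i := sum_nonneg hxU
    rw [sum_insert ha]
    rw [sum_filter, sum_powerset_insert ha, ← sum_filter]
    rcases Nat.eq_zero_or_pos k with rfl | hk
    · have h0 : ∑ C ∈ U.powerset, (if (insert a C).card ≤ 0 then ∏ i ∈ insert a C, x i else 0) = 0 :=
        sum_eq_zero fun C _ => by simp
      rw [h0, add_zero]
      exact (ih hxU 0).trans (le_of_eq (by simp))
    obtain ⟨n, rfl⟩ : ∃ n, k = n + 1 := ⟨k - 1, by omega⟩
    have h2 : ∑ C ∈ U.powerset, (if (insert a C).card ≤ n + 1 then ∏ i ∈ insert a C, x i else 0)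
        = x a * ∑ C ∈ U.powerset.filter (fun C => C.card ≤ n), ∏ i ∈ C, x i := by
      rw [mul_sum, sum_filter]
      refine sum_congr rfl fun C hC => ?_
      have hna : a ∉ C := fun h => ha (mem_powerset.1 hC h)
      simp only [card_insert_of_notMem hna, prod_insert hna, Nat.add_le_add_iff_right]
    rw [h2]
    set s := ∑ i ∈ U, x i with hs'
    have e1 := ih hxU (n + 1)
    have e2 := mul_le_mul_of_nonneg_left (ih hxU n) hxa
    have e3 : (1 + s) ^ n ≤ (1 + (x a + s)) ^ n := by gcongr; linarith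
    have e4 : (1 + s) ^ (n + 1) + x a * (1 + s) ^ n = (1 + (x a + s)) * (1 + s) ^ n := by ring
    have e5 := mul_le_mul_of_nonneg_left e3 (show 0 ≤ 1 + (x a + s) by linarith)
    rw [← pow_succ'] at e5
    linarith

theorem inv_shiftWeight (C : Finset ℕ) (h : ∀ r ∈ C, r.Prime) :
    ∏ r ∈ C, (1 : ℝ) / ((r : ℝ) - 1) = 1 / ((∏ r ∈ C, (r - 1) : ℕ) : ℝ) := by
  rw [Nat.cast_prod, prod_div_distrib, prod_const_one]
  congr 1
  exact prod_congr rfl fun r hr => by rw [Nat.cast_sub (h r hr).one_le]; simp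

/-- At most `12 Z exp (- lo)` primes `p ≤ Z + 1` of scale at least `lo`. -/
theorem card_top_le (S : Finset ℕ) {lo Z : ℝ}
    (h : ∀ p ∈ S, p.Prime ∧ lo ≤ lam (p : ℝ) ∧ ((p - 1 : ℕ) : ℝ) ≤ Z) (hZ : 0 ≤ Z) :
    (S.card : ℝ) ≤ 12 * Z * exp (-lo) := by
  rcases S.eq_empty_or_nonempty with rfl | ⟨p0, hp0⟩
  · simp; positivity
  obtain ⟨hp, hlo, hpz⟩ := h p0 hp0
  have hZ1 : 1 ≤ Z := le_trans (by
    have := hp.two_le
    exact_mod_cast (show 1 ≤ p0 - 1 by omega)) hpz
  have hle : ∀ p ∈ S, (p : ℝ) ≤ 2 * Z := by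
    intro p hpS
    obtain ⟨hq, -, hqz⟩ := h p hpS
    rw [Nat.cast_sub hq.one_le] at hqz
    push_cast at hqz
    linarith
  set X := 2 * Z with hX
  have hX1 : 1 < X := by linarith
  have hlog : exp lo ≤ log X := by
    have h1 : (1 : ℝ) < p0 := by exact_mod_cast hp.one_lt
    calc exp lo ≤ exp (lam (p0 : ℝ)) := exp_le_exp.2 hlo
      _ = log p0 := exp_log (log_pos h1)
      _ ≤ log X := log_le_log (by linarith) (hle p0 hp0)
  have hcard : (S.card : ℝ) ≤ (Nat.primeCounting ⌊X⌋₊ : ℝ) := by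
    have hsub : S ⊆ (Finset.range (⌊X⌋₊ + 1)).filter Nat.Prime := fun p hpS =>
      mem_filter.2 ⟨mem_range.2 (Nat.lt_succ_of_le (Nat.le_floor (hle p hpS))), (h p hpS).1⟩
    have h2 : ((Finset.range (⌊X⌋₊ + 1)).filter Nat.Prime).card = Nat.primeCounting ⌊X⌋₊ := by
      rw [Nat.primeCounting, Nat.primeCounting', Nat.count_eq_card_filter_range]
    exact_mod_cast (card_le_card hsub).trans_eq h2
  have hpi := Chebyshev.pi_le_log4_mul_div hX1
  have hlX : 0 < log X := log_pos hX1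
  rw [log_sqrt (by linarith)] at hpi
  have hl4 : log 4 ≤ 2 := by
    rw [show (4 : ℝ) = 2 ^ 2 by norm_num, log_pow]
    have := log_two_lt_d9
    push_cast
    linarith
  have hsqrt : √X * log X ≤ 2 * X := by
    have hs0 : 0 < √X := sqrt_pos.2 (by linarith)
    have : log X ≤ 2 * √X := by
      have := log_le_sub_one_of_pos hs0
      rw [log_sqrt (by linarith)] at this
      linarith
    calc √X * log X ≤ √X * (2 * √X) := by gcongr
      _ = 2 * (√X * √X) := by ring
      _ = 2 * X := by rw [mul_self_sqrt (by linarith)]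
  calc (S.card : ℝ) ≤ log 4 * X / (log X / 2) + √X := hcard.trans hpi
    _ ≤ 6 * X / log X := by
        rw [le_div_iff₀ hlX, add_mul]
        have : log 4 * X / (log X / 2) * log X = 2 * (log 4 * X) := by field_simp
        nlinarith
    _ ≤ 6 * X / exp lo := by gcongr
    _ = 12 * Z * exp (-lo) := by rw [exp_neg, hX]; ring

end Vale.Agent.P031.Collision
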