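import Vale.Agent.P031.Collision.Residual

/-!
# P031 Q2, section 7: two profiles of one value

Removing the primes common to two profiles that differ in their first `K` levels leaves a
residual configuration.
-/

open scoped Classical
noncomputable section

namespace Vale.Agent.P031

open Finset Real

/-- A profile of `v`: the decreasing list of the primes above the bottom threshold. -/
structure Prof (P : Params) (v : ℕ) (p : List ℕ) : Prop where
  sorted : p.Pairwise (· > ·)
  len : p.length ≤ P.K'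
  level : ∀ r ∈ p, r.Prime ∧ P.Tb < lam (r : ℝ) ∧ lam (r : ℝ) ≤ P.L + 1 ∧ P.Normal r
  head : 0 < p.length → P.L - 3 * Real.log P.L ≤ lam (p.getD 0 0 : ℝ)
  rest : ∃ u, SmallPart P u ∧ v = (p.map fun r => r - 1).prod * u
  slack : ∀ i < P.K, i < p.length →
    ∑ k ∈ Finset.Ioo i p.length, fordA (k - i) * lam (p.getD k 0 : ℝ)
      ≤ lam (p.getD i 0 : ℝ) - P.eta * P.L

namespace Collision

theorem getD_mem {p : List ℕ} {k : ℕ} (h : k < p.length) : p.getD k 0 ∈ p := by
  rw [List.getD_eq_getElem _ _ h]; exact List.getElem_mem h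

theorem getD_lt {p : List ℕ} (hp : p.Pairwise (· > ·)) {i k : ℕ} (h : k < p.length) (hik : i < k) :
    p.getD k 0 < p.getD i 0 := by
  rw [List.getD_eq_getElem _ _ h, List.getD_eq_getElem _ _ (hik.trans h)]
  exact List.pairwise_iff_getElem.1 hp i k (hik.trans h) h hik

theorem getD_le {p : List ℕ} (hp : p.Pairwise (· > ·)) {i k : ℕ} (h : k < p.length) (hik : i ≤ k) :
    p.getD k 0 ≤ p.getD i 0 := by
  rcases eq_or_lt_of_le hik with rfl | hlt
  · rfl
  · exact (getD_lt hp h hlt).le

theorem exists_getD {p : List ℕ} {r : ℕ} (h : r ∈ p) : ∃ k < p.length, p.getD k 0 = r := by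
  obtain ⟨k, hk, rfl⟩ := List.mem_iff_getElem.1 h
  exact ⟨k, hk, List.getD_eq_getElem _ _ hk⟩

theorem lt_length_of_ne {p : List ℕ} {k : ℕ} (h : p.getD k 0 ≠ 0) : k < p.length := by
  by_contra hc
  exact h (List.getD_eq_default _ _ (not_lt.1 hc))

/-- Two lists of nonzero entries with different first `K` entries differ first at some level. -/
theorem first_diff {p q : List ℕ} (hp : ∀ r ∈ p, r ≠ 0) (hq : ∀ r ∈ q, r ≠ 0) {K : ℕ}
    (h : p.take K ≠ q.take K) :
    ∃ l < K, p.getD l 0 ≠ q.getD l 0 ∧ ∀ k < l, p.getD k 0 = q.getD k 0 := by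
  have hex : ∃ l, l < K ∧ p.getD l 0 ≠ q.getD l 0 := by
    by_contra hno
    push Not at hno
    refine h (List.ext_getElem? fun n => ?_)
    simp only [List.getElem?_take]
    split
    · rename_i hn
      have he := hno n hn
      simp only [List.getD_eq_getElem?_getD] at he
      rcases hP : p[n]? with _ | a <;> rcases hQ : q[n]? with _ | b <;>
        simp only [hP, hQ, Option.getD_none, Option.getD_some] at he
      · rfl
      · exact absurd he.symm (hq b (List.mem_of_getElem? hQ))
      · exact absurd he (hp a (List.mem_of_getElem? hP))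
      · rw [he]
    · rfl
  refine ⟨Nat.find hex, (Nat.find_spec hex).1, (Nat.find_spec hex).2, fun k hk => ?_⟩
  by_contra hne
  exact Nat.find_min hex hk ⟨hk.trans (Nat.find_spec hex).1, hne⟩

theorem prof_prime_ne_zero {P : Params} {v : ℕ} {p : List ℕ} (h : Prof P v p) :
    ∀ r ∈ p, r ≠ 0 := fun r hr => (h.level r hr).1.ne_zero

theorem prof_sort {P : Params} {v : ℕ} {p : List ℕ} (h : Prof P v p) :
    p.toFinset.sort (· ≥ ·) = p :=
  (List.toFinset_sort (· ≥ ·) (h.sorted.imp fun hab => ne_of_gt hab)).2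
    (h.sorted.imp fun hab => le_of_lt hab)

/-- The shifted product over a set of primes. -/
def shiftProd (C : Finset ℕ) : ℕ := ∏ r ∈ C, (r - 1)

theorem shiftProd_ne_zero {C : Finset ℕ} (h : ∀ r ∈ C, r.Prime) : shiftProd C ≠ 0 :=
  prod_ne_zero_iff.2 fun r hr => by have := (h r hr).two_le; omega

theorem residual_slack {P : Params} {v : ℕ} {p : List ℕ} (hTb : 0 ≤ P.Tb) (hp : Prof P v p)
    {l : ℕ} (hl : l < P.K) {a : ℕ} (ha : 0 < a) (ι : Fin a → ℕ) (hι : StrictMono ι)
    (h0 : ι ⟨0, ha⟩ = l) (hlt : ∀ i, ι i < p.length) :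
    ∑ i : Fin a, fordA i * lam (p.getD (ι i) 0 : ℝ) ≤ -(P.eta * P.L) := by
  obtain ⟨a, rfl⟩ : ∃ a', a = a' + 1 := ⟨a - 1, by omega⟩
  have e0 : ι 0 = l := h0
  have hl' : l < p.length := e0 ▸ hlt _
  have hs := hp.slack l hl hl'
  have hstep : ∀ i : Fin (a + 1), l + (i : ℕ) ≤ ι i := by
    intro i
    induction i using Fin.induction with
    | zero => simp [e0]
    | succ i ih =>
      have := hι (Fin.castSucc_lt_succ (i := i))
      simp only [Fin.val_castSucc, Fin.val_succ] at *
      omega
  have hnn : ∀ k ∈ Finset.Ioo l p.length, 0 ≤ fordA (k - l) * lam (p.getD k 0 : ℝ) := by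
    intro k hk
    rw [Finset.mem_Ioo] at hk
    exact mul_nonneg (fordA_nonneg (by omega))
      (hTb.trans (hp.level _ (getD_mem hk.2)).2.1.le)
  rw [Fin.sum_univ_succ, e0]
  simp only [Fin.val_zero, fordA_zero, Fin.val_succ]
  have hle : ∑ i : Fin a, fordA ((i : ℕ) + 1) * lam (p.getD (ι i.succ) 0 : ℝ)
      ≤ ∑ k ∈ Finset.Ioo l p.length, fordA (k - l) * lam (p.getD k 0 : ℝ) := by
    calc _ ≤ ∑ i : Fin a, fordA (ι i.succ - l) * lam (p.getD (ι i.succ) 0 : ℝ) := by
          refine sum_le_sum fun i _ => ?_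
          have := hstep i.succ
          rw [Fin.val_succ] at this
          exact mul_le_mul_of_nonneg_right (fordA_mono (by omega) (by omega))
            (hTb.trans (hp.level _ (getD_mem (hlt _))).2.1.le)
      _ = ∑ k ∈ univ.image (fun i : Fin a => ι i.succ),
            fordA (k - l) * lam (p.getD k 0 : ℝ) :=
          (sum_image (g := fun i : Fin a => ι i.succ)
            (f := fun k => fordA (k - l) * lam (p.getD k 0 : ℝ))
            fun x _ y _ h => Fin.succ_inj.1 (hι.injective h)).symm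
      _ ≤ _ := by
          refine sum_le_sum_of_subset_of_nonneg (fun k hk => ?_) fun k hk _ => hnn k hk
          obtain ⟨i, -, rfl⟩ := mem_image.1 hk
          have := hstep i.succ
          rw [Fin.val_succ] at this
          exact Finset.mem_Ioo.2 ⟨by omega, hlt _⟩
  linarith

/-- The common part and the two residual sets of a pair of profiles. -/
theorem split {P : Params} (hTb : 0 ≤ P.Tb) {v : ℕ} {p q : List ℕ} (hp : Prof P v p)
    (hq : Prof P v q) {l : ℕ} (hl : l < P.K) (hlt : q.getD l 0 < p.getD l 0)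
    (heq : ∀ k < l, p.getD k 0 = q.getD k 0) :
    ∃ (C A B : Finset ℕ) (v' : ℕ), p.toFinset = C ∪ A ∧ q.toFinset = C ∪ B ∧
      C.card ≤ P.K' ∧ (∀ r ∈ C, r.Prime ∧ P.Tb < lam (r : ℝ) ∧ lam (r : ℝ) ≤ P.L + 1) ∧
      v = shiftProd C * v' ∧
      (((∃ r ∈ C, P.L - 3 * Real.log P.L ≤ lam (r : ℝ)) ∧ Resid P 0 A B v') ∨
        Resid P (P.L - 3 * Real.log P.L) A B v') := by
  have hl' : l < p.length := lt_length_of_ne (by omega)
  set C := p.toFinset.filter (fun r => r ∈ q) with hC
  set A := p.toFinset.filter (fun r => r ∉ q) with hA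
  set B := q.toFinset.filter (fun r => r ∉ p) with hB
  have hpCA : p.toFinset = C ∪ A := by
    ext r; simp only [hC, hA, mem_union, mem_filter, List.mem_toFinset]; tauto
  have hqCB : q.toFinset = C ∪ B := by
    ext r; simp only [hC, hB, mem_union, mem_filter, List.mem_toFinset]; tauto
  have hCA : Disjoint C A := disjoint_filter_filter_not _ _ _
  have hCB : Disjoint C B := by
    rw [Finset.disjoint_left]
    intro r h1 h2
    simp only [hC, hB, mem_filter, List.mem_toFinset] at h1 h2
    exact h2.2 h1.1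
  have hCcard : C.card ≤ P.K' :=
    (card_filter_le _ _).trans ((List.toFinset_card_le p).trans hp.len)
  have hClev : ∀ r ∈ C, r.Prime ∧ P.Tb < lam (r : ℝ) ∧ lam (r : ℝ) ≤ P.L + 1 := by
    intro r hr
    have := hp.level r (List.mem_toFinset.1 (mem_filter.1 hr).1)
    exact ⟨this.1, this.2.1, this.2.2.1⟩
  -- the first residual prime
  have hnq : p.getD l 0 ∉ q := by
    intro hmem
    obtain ⟨k, hk, hke⟩ := exists_getD hmem
    rcases lt_or_ge k l with hkl | hkl
    · have := heq k hkl
      have h2 := getD_lt hp.sorted hl' hkl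
      omega
    · have := getD_le hq.sorted hk hkl
      omega
  have hBtop : ∀ r ∈ B, r ≤ p.getD l 0 := by
    intro r hr
    simp only [hB, mem_filter, List.mem_toFinset] at hr
    obtain ⟨k, hk, rfl⟩ := exists_getD hr.1
    rcases lt_or_ge k l with hkl | hkl
    · exact absurd (heq k hkl ▸ getD_mem (hkl.trans hl')) hr.2
    · have := getD_le hq.sorted hk hkl
      omega
  set I := (Finset.range p.length).filter (fun k => p.getD k 0 ∉ q) with hI
  have hlI : l ∈ I := mem_filter.2 ⟨mem_range.2 hl', hnq⟩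
  have hImin : ∀ k ∈ I, l ≤ k := by
    intro k hk
    simp only [hI, mem_filter, mem_range] at hk
    by_contra hkl
    push Not at hkl
    refine hk.2 ?_
    rw [heq k hkl]
    refine getD_mem (lt_length_of_ne ?_)
    rw [← heq k hkl]
    exact prof_prime_ne_zero hp _ (getD_mem hk.1)
  set ι := I.orderEmbOfFin rfl with hι
  have hιmem : ∀ i, ι i ∈ I := fun i => orderEmbOfFin_mem I rfl i
  have ha : 0 < I.card := card_pos.2 ⟨l, hlI⟩
  have hι0 : ι ⟨0, ha⟩ = l := by
    rw [hι, orderEmbOfFin_zero rfl ha]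
    exact le_antisymm (min'_le _ _ hlI) (le_min' _ _ _ hImin)
  have hιlt : ∀ i, ι i < p.length := fun i => mem_range.1 (mem_filter.1 (hιmem i)).1
  let α : Fin I.card → ℕ := fun i => p.getD (ι i) 0
  let β : Fin B.card → ℕ := fun k => B.orderEmbOfFin rfl k
  have hαA : A = univ.image α := by
    ext r
    simp only [hA, mem_filter, List.mem_toFinset, mem_image, mem_univ, true_and, α]
    constructor
    · rintro ⟨h1, h2⟩
      obtain ⟨k, hk, rfl⟩ := exists_getD h1
      have hkI : k ∈ I := mem_filter.2 ⟨mem_range.2 hk, h2⟩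
      rw [← image_orderEmbOfFin_univ I rfl] at hkI
      obtain ⟨i, -, hi⟩ := mem_image.1 hkI
      exact ⟨i, by rw [hι, hi]⟩
    · rintro ⟨i, rfl⟩
      exact ⟨getD_mem (hιlt i), (mem_filter.1 (hιmem i)).2⟩
  have hαanti : StrictAnti α := fun i j hij =>
    getD_lt hp.sorted (hιlt j) (ι.strictMono hij)
  have hβB : B = univ.image β := (image_orderEmbOfFin_univ B rfl).symm
  obtain ⟨u, hu, hvu⟩ := hp.rest
  obtain ⟨u', hu', hvu'⟩ := hq.rest
  have hpprod : (p.map fun r => r - 1).prod = shiftProd C * ∏ i, (α i - 1) := by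
    rw [← List.prod_toFinset _ (hp.sorted.imp fun hab => ne_of_gt hab), hpCA,
      prod_union hCA]
    congr 1
    rw [hαA, prod_image fun x _ y _ h => hαanti.injective h]
  have hqprod : (q.map fun r => r - 1).prod = shiftProd C * ∏ k, (β k - 1) := by
    rw [← List.prod_toFinset _ (hq.sorted.imp fun hab => ne_of_gt hab), hqCB,
      prod_union hCB]
    congr 1
    refine Eq.trans ?_ (prod_image (g := β) (f := fun r => r - 1)
      fun x _ y _ h => (B.orderEmbOfFin rfl).injective h)
    exact Finset.prod_congr hβB fun _ _ => rfl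
  have hC0 : shiftProd C ≠ 0 := shiftProd_ne_zero fun r hr => (hClev r hr).1
  have hv1 : v = shiftProd C * ((∏ i, (α i - 1)) * u) := by rw [hvu, hpprod, mul_assoc]
  have hv2 : v = shiftProd C * ((∏ k, (β k - 1)) * u') := by rw [hvu', hqprod, mul_assoc]
  have hv12 : (∏ i, (α i - 1)) * u = (∏ k, (β k - 1)) * u' :=
    mul_left_cancel₀ hC0 (hv1.symm.trans hv2)
  refine ⟨C, A, B, (∏ i, (α i - 1)) * u, hpCA, hqCB, hCcard, hClev, hv1, ?_⟩
  have hres : ∀ lo, lo ≤ lam (α ⟨0, ha⟩ : ℝ) → Resid P lo A B ((∏ i, (α i - 1)) * u) := by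
    intro lo hlo
    refine ⟨I.card, B.card, α, β, u, u', ha, ?_, ?_, hαanti, fun i => ?_, fun k => ?_,
      fun i k h => ?_, fun k => ?_, hu, hu', rfl, hv12, ?_, hlo, hαA, hβB⟩
    · exact (card_filter_le _ _).trans (by rw [card_range]; exact hp.len)
    · exact (card_filter_le _ _).trans ((List.toFinset_card_le q).trans hq.len)
    · exact hp.level _ (getD_mem (hιlt i))
    · exact hq.level _ (List.mem_toFinset.1 (mem_filter.1 (orderEmbOfFin_mem B rfl k)).1)
    · refine (mem_filter.1 (hιmem i)).2 ?_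
      show α i ∈ q
      rw [h]
      exact List.mem_toFinset.1 (mem_filter.1 (orderEmbOfFin_mem B rfl k)).1
    · show β k ≤ p.getD (ι ⟨0, ha⟩) 0
      rw [hι0]
      exact hBtop _ (orderEmbOfFin_mem B rfl k)
    · exact residual_slack hTb hp hl ha ι ι.strictMono hι0 hιlt
  have hα0 : α ⟨0, ha⟩ = p.getD l 0 := by simp only [α, hι0]
  rcases Nat.eq_zero_or_pos l with h | h
  · right
    refine hres _ ?_
    rw [hα0]
    subst h
    exact hp.head hl'
  · left
    refine ⟨⟨p.getD 0 0, ?_, hp.head (by omega)⟩, hres 0 ?_⟩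
    · refine mem_filter.2 ⟨List.mem_toFinset.2 (getD_mem (by omega)), ?_⟩
      rw [heq 0 h]
      refine getD_mem (lt_length_of_ne ?_)
      rw [← heq 0 h]
      exact prof_prime_ne_zero hp _ (getD_mem (by omega))
    · rw [hα0]
      exact hTb.trans (hp.level _ (getD_mem hl')).2.1.le

end Collision

end Vale.Agent.P031
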