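import Vale.Agent.P031.Collision.Sweep
import Vale.Agent.P031.Mertens
import Vale.Agent.P031.Euler

/-!
# P031 Q2, section 7: the sum over unconstrained matrices

Each cell is an Euler product; the budget on the number of prime factors in an interval is used
through the weight `z ^ Omega`.
-/

open scoped Classical
noncomputable section

namespace Vale.Agent.P031.Collision

open Finset Real

theorem cmul_one_right (g : ℕ → ℝ) : cmul g 1 = 1 := by simp [cmul]

theorem cmul_prod {ι : Type*} (s : Finset ι) (g : ℕ → ℝ) (w : ι → ℕ) (hw : ∀ i ∈ s, w i ≠ 0) :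
    cmul g (∏ i ∈ s, w i) = ∏ i ∈ s, cmul g (w i) := by
  induction s using Finset.induction_on with
  | empty => simp [cmul_one_right]
  | insert i s hi ih =>
    rw [prod_insert hi, prod_insert hi,
      cmul_mul g (hw i (mem_insert_self _ _))
        (prod_ne_zero_iff.2 fun j hj => hw j (mem_insert_of_mem hj)),
      ih fun j hj => hw j (mem_insert_of_mem hj)]

namespace Frame

variable (F : Frame)

/-- Number of rows reaching above a level. -/
def rowsAbove (x : ℝ) : ℕ := (univ.filter fun i => x < F.sa i).card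

/-- Number of columns reaching above a level. -/
def colsAbove (x : ℝ) : ℕ := (univ.filter fun k => x < F.sb k).card

theorem sum_rowCap {x : ℝ} (hx : F.Tb ≤ x) :
    ∑ i, (if x < F.rowCap i then (1 : ℝ) else 0) = F.rowsAbove x := by
  rw [Fin.sum_univ_castSucc]
  simp [rowCap, rowsAbove, Finset.sum_boole, not_lt.2 hx]

theorem sum_colCap {x : ℝ} (hx : F.Tb ≤ x) :
    ∑ k, (if x < F.colCap k then (1 : ℝ) else 0) = F.colsAbove x := by
  rw [Fin.sum_univ_castSucc]
  simp [colCap, colsAbove, Finset.sum_boole, not_lt.2 hx]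

/-- The sum over unconstrained matrices. -/
theorem free_le : ∃ C : ℝ, 0 ≤ C ∧ ∀ (F : Frame) (D : ℝ) (z : ℕ → ℝ), 0 ≤ F.Tb → 0 < D →
    (∀ j, F.lo j = F.Tb + j * D) → (∀ j, F.hi j = F.Tb + (j + 1) * D) →
    (∀ i, F.sa i ≤ F.Tb + F.N * D) → (∀ j, 0 < z j ∧ z j ≤ 1) →
    F.free ≤ exp (-∑ j ∈ range F.N, F.budget j * log (z j)
      + ((F.a + 1) * (F.b + 1) : ℕ) * (F.Tb + C)
      + ∑ j ∈ range F.N, (F.rowsAbove (F.lo j) : ℝ) * F.colsAbove (F.lo j) * z j * (D + C)) := by
  obtain ⟨Cu, hCu0, hCu⟩ := mertens_upTo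
  obtain ⟨Cl, hCl0, hCl⟩ := mertens_lam
  set C2 : ℝ := ∑' k : ℕ, (1 : ℝ) / (k : ℝ) ^ 2 with hC2
  have hC20 : 0 ≤ C2 := tsum_nonneg fun k => by positivity
  refine ⟨Cu + Cl + 4 * C2, by positivity, ?_⟩
  intro F D z hTb hD hlo hhi hsa hz
  let g : ℕ → ℝ := fun r => ∏ j ∈ range F.N, if F.lo j < lam r ∧ lam r ≤ F.hi j then z j else 1
  have hg0 : ∀ r, 0 ≤ g r := fun r => prod_nonneg fun j _ => by
    split
    · exact (hz j).1.le
    · exact zero_le_one
  have hg1 : ∀ r, g r ≤ 1 := fun r => prod_le_one (fun j _ => by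
    split
    · exact (hz j).1.le
    · exact zero_le_one) fun j _ => by
    split
    · exact (hz j).2
    · exact le_rfl
  let cap : Fin (F.a + 1) → Fin (F.b + 1) → ℝ := fun i k => min (F.rowCap i) (F.colCap k)
  let T : Fin (F.a + 1) → Fin (F.b + 1) → Finset ℕ := fun i k =>
    (range (F.M + 1)).filter fun n => n ≠ 0 ∧ ∀ r : ℕ, r.Prime → r ∣ n → lam r ≤ cap i k
  have hcell : ∀ i k, ∑ n ∈ T i k, cmul g n / n ≤ exp (F.Tb + Cu + 4 * C2
      + ∑ j ∈ range F.N, (if F.lo j < cap i k then z j * (D + Cl) else 0)) := by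
    intro i k
    set S := primesUpTo (exp (exp (cap i k))) with hS
    refine (euler_le S (T i k) g (fun p hp => primesUpTo_prime hp) (fun p hp => ⟨hg0 p, ?_⟩)
      (fun n hn => ⟨(mem_filter.1 hn).2.1, fun r hr => ?_⟩)).trans ?_
    · have h2 : (2 : ℝ) ≤ p := by exact_mod_cast (primesUpTo_prime hp).two_le
      linarith [hg1 p]
    · have hrp := Nat.prime_of_mem_primeFactors hr
      exact mem_primesLe_lam.2 ⟨hrp,
        (mem_filter.1 hn).2.2 r hrp (Nat.dvd_of_mem_primeFactors hr)⟩
    apply exp_le_exp.2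
    have hsq : ∑ p ∈ S, (g p / p) ^ 2 ≤ C2 := by
      refine (sum_le_sum fun p _ => ?_).trans (sum_inv_sq_le S)
      rw [div_pow]
      gcongr
      exact pow_le_one₀ (hg0 p) (hg1 p)
    have hpt : ∀ p ∈ S, g p / p ≤ (if lam p ≤ F.Tb then (1 : ℝ) / p else 0)
        + ∑ j ∈ range F.N, (if F.lo j < cap i k ∧ F.lo j < lam p ∧ lam p ≤ F.hi j
            then z j * (1 / p) else 0) := by
      intro p hp
      obtain ⟨hpp, hpl⟩ := mem_primesLe_lam.1 hp
      have hnn : ∀ j ∈ range F.N, (0 : ℝ) ≤ (if F.lo j < cap i k ∧ F.lo j < lam p ∧ lam p ≤ F.hi j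
          then z j * (1 / p) else 0) := fun j _ => by
        split
        · exact mul_nonneg (hz j).1.le (by positivity)
        · exact le_rfl
      by_cases hsmall : lam (p : ℝ) ≤ F.Tb
      · rw [if_pos hsmall]
        have : g p / p ≤ 1 / p := by gcongr; exact hg1 p
        linarith [sum_nonneg hnn]
      rw [if_neg hsmall, zero_add]
      push Not at hsmall
      have hN : lam (p : ℝ) ≤ F.Tb + F.N * D := by
        refine hpl.trans ((min_le_left _ _).trans ?_)
        show Fin.lastCases (motive := fun _ => ℝ) F.Tb F.sa i ≤ _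
        induction i using Fin.lastCases with
        | last => rw [Fin.lastCases_last]; nlinarith [(Nat.cast_nonneg F.N : (0 : ℝ) ≤ F.N)]
        | cast i => rw [Fin.lastCases_castSucc]; exact hsa i
      set x := (lam (p : ℝ) - F.Tb) / D with hx
      have hx0 : 0 < x := div_pos (by linarith) hD
      have hxN : x ≤ F.N := by rw [hx, div_le_iff₀ hD]; linarith
      set j := ⌈x⌉₊ - 1 with hj
      have hc1 : 1 ≤ ⌈x⌉₊ := Nat.one_le_ceil_iff.2 hx0
      have hjN : j < F.N := by
        have : ⌈x⌉₊ ≤ F.N := Nat.ceil_le.2 hxN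
        omega
      have hjlo : (j : ℝ) < x := Nat.lt_ceil.1 (by omega)
      have hjhi : x ≤ (j : ℝ) + 1 := by
        have h := Nat.le_ceil x
        have : ((⌈x⌉₊ : ℕ) : ℝ) = (j : ℝ) + 1 := by
          rw [hj, Nat.cast_sub hc1]; push_cast; ring
        linarith
      have hxD : x * D = lam (p : ℝ) - F.Tb := div_mul_cancel₀ _ hD.ne'
      have hin : F.lo j < lam (p : ℝ) ∧ lam (p : ℝ) ≤ F.hi j := by
        rw [hlo, hhi]
        exact ⟨by nlinarith, by nlinarith⟩
      refine le_trans ?_ (single_le_sum hnn (mem_range.2 hjN))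
      rw [if_pos ⟨hin.1.trans_le hpl, hin⟩, mul_one_div]
      gcongr
      have hsplit := mul_prod_erase (range F.N)
        (fun j => if F.lo j < lam (p : ℝ) ∧ lam (p : ℝ) ≤ F.hi j then z j else 1) (mem_range.2 hjN)
      show g p ≤ z j
      rw [show g p = _ from hsplit.symm, if_pos hin]
      refine mul_le_of_le_one_right (hz j).1.le (prod_le_one (fun j' _ => ?_) fun j' _ => ?_)
      · split
        · exact (hz j').1.le
        · exact zero_le_one
      · split
        · exact (hz j').2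
        · exact le_rfl
    have hsum := sum_le_sum hpt
    rw [sum_add_distrib, Finset.sum_comm] at hsum
    have hA : ∑ p ∈ S, (if lam (p : ℝ) ≤ F.Tb then (1 : ℝ) / p else 0) ≤ F.Tb + Cu := by
      rw [← sum_filter]
      refine (sum_le_sum_of_subset_of_nonneg (t := primesUpTo (exp (exp F.Tb))) ?_
        fun p _ _ => by positivity).trans ?_
      · intro p hp
        obtain ⟨hp1, hp2⟩ := mem_filter.1 hp
        exact mem_primesLe_lam.2 ⟨primesUpTo_prime hp1, hp2⟩
      · have h := (abs_le.1 (hCu _ (two_le_expexp hTb))).2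
        have : lam (exp (exp F.Tb)) = F.Tb := by simp [lam]
        linarith
    have hB : ∀ j ∈ range F.N, ∑ p ∈ S, (if F.lo j < cap i k ∧ F.lo j < lam (p : ℝ) ∧
          lam (p : ℝ) ≤ F.hi j then z j * (1 / (p : ℝ)) else 0)
        ≤ (if F.lo j < cap i k then z j * (D + Cl) else 0) := by
      intro j _
      by_cases hc : F.lo j < cap i k
      · simp only [hc, true_and, if_true]
        rw [← sum_filter, ← mul_sum]
        refine mul_le_mul_of_nonneg_left ?_ (hz j).1.le
        refine (sum_le_sum_of_subset_of_nonneg (t := primesLam (F.lo j) (F.hi j)) ?_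
          fun p _ _ => by positivity).trans ?_
        · intro p hp
          obtain ⟨hp1, hp2⟩ := mem_filter.1 hp
          exact mem_primesLam.2 ⟨primesUpTo_prime hp1, hp2⟩
        · have hl0 : 0 ≤ F.lo j := by rw [hlo]; positivity
          have hlh : F.hi j - F.lo j = D := by rw [hlo, hhi]; ring
          have h := (abs_le.1 (hCl (F.lo j) (F.hi j) hl0 (by linarith))).2
          linarith
      · simp [hc]
    have hB' := sum_le_sum hB
    linarith
  have hw : ∀ w ∈ F.Adm ∅ ∅, 1 / (F.total w : ℝ) ≤ exp (-∑ j ∈ range F.N, F.budget j * log (z j))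
      * ∏ i, ∏ k, (cmul g (w i k) / (w i k : ℝ)) := by
    intro w hw
    obtain ⟨hb, -⟩ := F.mem_Adm.1 hw
    have h0 : ∀ i k, w i k ≠ 0 := fun i k => (hb.1 i k).1
    have hg : ∏ i, ∏ k, cmul g (w i k) = cmul g (F.total w) := by
      rw [Frame.total, cmul_prod univ g _ fun i _ => prod_ne_zero_iff.2 fun k _ => h0 i k]
      exact prod_congr rfl fun i _ => (cmul_prod univ g _ fun k _ => h0 i k).symm
    have hg' : cmul g (F.total w)
        = exp (∑ j ∈ range F.N, (omegaIoc (F.lo j) (F.hi j) (F.total w) : ℝ) * log (z j)) := by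
      rw [cmul_finset_prod, exp_sum]
      refine prod_congr rfl fun j _ => ?_
      rw [cmul_ite, exp_nat_mul, exp_log (hz j).1]
    have htot : (F.total w : ℝ) = ∏ i, ∏ k, (w i k : ℝ) := by
      simp [Frame.total, Nat.cast_prod]
    simp only [prod_div_distrib]
    rw [hg, hg', ← htot, ← mul_div_assoc, ← exp_add]
    gcongr
    refine one_le_exp ?_
    rw [← sum_neg_distrib, ← sum_add_distrib]
    refine sum_nonneg fun j hj => ?_
    have h1 := hb.2.2 j (mem_range.1 hj)
    have h2 : log (z j) ≤ 0 := log_nonpos (hz j).1.le (hz j).2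
    nlinarith
  refine (sum_le_sum hw).trans ?_
  rw [← mul_sum]
  have hsub : F.Adm ∅ ∅ ⊆ Fintype.piFinset fun i => Fintype.piFinset (T i) := by
    intro w hw
    obtain ⟨hb, -⟩ := F.mem_Adm.1 hw
    refine Fintype.mem_piFinset.2 fun i => Fintype.mem_piFinset.2 fun k => mem_filter.2
      ⟨mem_range.2 (Nat.lt_succ_of_le (hb.1 i k).2), (hb.1 i k).1, hb.2.1 i k⟩
  have hnn : ∀ n, 0 ≤ cmul g n / (n : ℝ) := fun n =>
    div_nonneg (List.prod_nonneg fun x hx => by
      obtain ⟨r, -, rfl⟩ := List.mem_map.1 hx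
      exact hg0 r) n.cast_nonneg
  refine (mul_le_mul_of_nonneg_left (sum_le_sum_of_subset_of_nonneg hsub
    fun w _ _ => prod_nonneg fun i _ => prod_nonneg fun k _ => hnn _) (exp_pos _).le).trans ?_
  rw [← Finset.prod_univ_sum (fun i => Fintype.piFinset (T i))
    (fun i (v : Fin (F.b + 1) → ℕ) => ∏ k, cmul g (v k) / (v k : ℝ))]
  have hrow : ∀ i, ∑ v ∈ Fintype.piFinset (T i), ∏ k, cmul g (v k) / (v k : ℝ)
      = ∏ k, ∑ n ∈ T i k, cmul g n / (n : ℝ) :=
    fun i => (Finset.prod_univ_sum (T i) (fun _ n => cmul g n / (n : ℝ))).symm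
  simp only [hrow]
  refine (mul_le_mul_of_nonneg_left (prod_le_prod
    (fun i _ => prod_nonneg fun k _ => sum_nonneg fun n _ => hnn n)
    fun i _ => prod_le_prod (fun k _ => sum_nonneg fun n _ => hnn n) fun k _ => hcell i k)
    (exp_pos _).le).trans ?_
  simp only [← exp_sum]
  rw [← exp_add]
  apply exp_le_exp.2
  have hswap : ∑ i, ∑ k, ∑ j ∈ range F.N, (if F.lo j < cap i k then z j * (D + Cl) else 0)
      = ∑ j ∈ range F.N, (F.rowsAbove (F.lo j) : ℝ) * F.colsAbove (F.lo j) * z j * (D + Cl) := by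
    simp only [Finset.sum_comm (s := (univ : Finset (Fin (F.b + 1))))]
    rw [Finset.sum_comm]
    refine sum_congr rfl fun j _ => ?_
    have hTj : F.Tb ≤ F.lo j := by rw [hlo]; nlinarith [(Nat.cast_nonneg j : (0 : ℝ) ≤ j)]
    rw [← F.sum_rowCap hTj, ← F.sum_colCap hTj, sum_mul_sum, sum_mul, sum_mul]
    refine sum_congr rfl fun i _ => ?_
    rw [sum_mul, sum_mul]
    refine sum_congr rfl fun k _ => ?_
    simp only [cap, lt_min_iff]
    by_cases h1 : F.lo j < F.rowCap i <;> by_cases h2 : F.lo j < F.colCap k <;> simp [h1, h2]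
  simp only [sum_add_distrib]
  rw [hswap]
  simp only [sum_const, card_univ, Fintype.card_fin, nsmul_eq_mul]
  have hmono : ∑ j ∈ range F.N, (F.rowsAbove (F.lo j) : ℝ) * F.colsAbove (F.lo j) * z j * (D + Cl)
      ≤ ∑ j ∈ range F.N,
        (F.rowsAbove (F.lo j) : ℝ) * F.colsAbove (F.lo j) * z j * (D + (Cu + Cl + 4 * C2)) := by
    refine sum_le_sum fun j _ => ?_
    have := (hz j).1.le
    gcongr
    linarith
  have hab : (0 : ℝ) ≤ ((F.a : ℝ) + 1) * ((F.b : ℝ) + 1) * Cl := by positivity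
  push_cast at *
  nlinarith

end Frame

end Vale.Agent.P031.Collision
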