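import Vale.Agent.P031.Defs

/-!
# P031 Q2, section 7: the arithmetic of a profile

For a decreasing list of grid scales the sum over the grid of `D (n log n - n)`, with `n` the
number of list entries above a grid point, is the weighted sum of Ford's coefficients.
-/

open scoped Classical
noncomputable section

namespace Vale.Agent.P031.Collision

open Finset

theorem fordA_zero : fordA 0 = -1 := by
  simp [fordA]

theorem sum_range_fordA (n : ℕ) :
    ∑ i ∈ range n, fordA i = (n : ℝ) * Real.log n - n := by
  induction n with
  | zero => simp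
  | succ n ih => rw [sum_range_succ, ih]; unfold fordA; push_cast; ring

theorem sum_downClosed {a : ℕ} (s : Finset (Fin a)) (hs : ∀ i ∈ s, ∀ j, j ≤ i → j ∈ s) (g : ℕ → ℝ) :
    ∑ i ∈ s, g i = ∑ i ∈ range s.card, g i := by
  have hiff : ∀ i : Fin a, i ∈ s ↔ (i : ℕ) < s.card := by
    intro i
    constructor
    · intro hi
      have h : Finset.Iic i ⊆ s := fun j hj => hs i hi j (Finset.mem_Iic.1 hj)
      have h2 := card_le_card h
      rw [Fin.card_Iic] at h2
      omega
    · intro hi
      by_contra hni
      have h : s ⊆ Finset.Iio i := by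
        intro j hj
        rw [Finset.mem_Iio]
        by_contra hle
        exact hni (hs j hj i (not_lt.1 hle))
      have h2 := card_le_card h
      rw [Fin.card_Iio] at h2
      omega
  refine sum_nbij (fun i => (i : ℕ)) ?_ ?_ ?_ (fun _ _ => rfl)
  · intro i hi
    exact mem_range.2 ((hiff i).1 hi)
  · intro i _ j _ h
    exact Fin.ext h
  · intro n hn
    have hn' : n < s.card := mem_range.1 hn
    have hle : s.card ≤ a := s.card_le_univ.trans_eq (Fintype.card_fin a)
    exact ⟨⟨n, lt_of_lt_of_le hn' hle⟩, (hiff _).2 hn', rfl⟩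

/-- Number of entries whose grid index is at least `j`. -/
def above {a : ℕ} (e : Fin a → ℕ) (j : ℕ) : ℕ := (univ.filter fun i => j ≤ e i).card

theorem sum_above {a : ℕ} (e : Fin a → ℕ) {N : ℕ} (hN : ∀ i, e i < N) :
    ∑ j ∈ range N, (above e j : ℝ) = ∑ i, ((e i : ℝ) + 1) := by
  have h : ∀ j, (above e j : ℝ) = ∑ i : Fin a, if j ≤ e i then (1 : ℝ) else 0 := by
    intro j
    simp [above, Finset.sum_boole]
  simp only [h]
  rw [Finset.sum_comm]
  refine sum_congr rfl fun i _ => ?_
  rw [Finset.sum_boole]
  have : (range N).filter (fun j => j ≤ e i) = range (e i + 1) := by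
    ext j
    simp only [mem_filter, mem_range]
    have := hN i
    omega
  rw [this, card_range]
  push_cast; rfl

theorem sum_entropy {a : ℕ} (e : Fin a → ℕ) (he : Antitone e) {N : ℕ} (hN : ∀ i, e i < N) :
    ∑ j ∈ range N, ((above e j : ℝ) * Real.log (above e j) - above e j)
      = ∑ i : Fin a, fordA i * ((e i : ℝ) + 1) := by
  have h : ∀ j, (above e j : ℝ) * Real.log (above e j) - above e j
      = ∑ i : Fin a, if j ≤ e i then fordA i else 0 := by
    intro j
    rw [← sum_range_fordA, ← sum_filter]
    unfold above
    exact (sum_downClosed _ (fun i hi k hk => mem_filter.2 ⟨mem_univ _,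
      ((mem_filter.1 hi).2).trans (he hk)⟩) fordA).symm
  simp only [h]
  rw [Finset.sum_comm]
  refine sum_congr rfl fun i _ => ?_
  rw [← sum_filter]
  have : (range N).filter (fun j => j ≤ e i) = range (e i + 1) := by
    ext j
    simp only [mem_filter, mem_range]
    have := hN i
    omega
  rw [this, sum_const, card_range, nsmul_eq_mul]
  push_cast; ring

theorem log_natCast_le_self (n : ℕ) : Real.log n ≤ n := Real.log_le_self n.cast_nonneg

end Vale.Agent.P031.Collision
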