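import Mathlib

/-!
# P031 Q2, section 7: a common refinement of two factorisations

Two factorisations of one positive integer have a matrix of which they are the row and the
column products.
-/

namespace Vale.Agent.P031.Collision

open Finset

/-- A divisor of a product splits along the factors. -/
theorem exists_split : ∀ {m : ℕ} (y : Fin m → ℕ) (a : ℕ), a ∣ ∏ k, y k →
    ∃ d : Fin m → ℕ, (∀ k, d k ∣ y k) ∧ ∏ k, d k = a := by
  intro m
  induction m with
  | zero =>
    intro y a h
    refine ⟨fun k => Fin.elim0 k, fun k => Fin.elim0 k, ?_⟩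
    simp at h ⊢
    exact h.symm
  | succ m ih =>
    intro y a h
    rw [Fin.prod_univ_succ] at h
    obtain ⟨d₀, d₁, h₀, h₁, rfl⟩ := exists_dvd_and_dvd_of_dvd_mul h
    obtain ⟨d, hd, hprod⟩ := ih (fun k => y k.succ) d₁ h₁
    refine ⟨Fin.cons d₀ d, ?_, ?_⟩
    · intro k
      induction k using Fin.cases with
      | zero => simpa using h₀
      | succ k => simpa using hd k
    · rw [Fin.prod_univ_succ]
      simp [hprod]

/-- Common refinement. -/
theorem exists_matrix : ∀ {n m : ℕ} (x : Fin n → ℕ) (y : Fin m → ℕ), (∀ i, x i ≠ 0) →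
    (∀ k, y k ≠ 0) → ∏ i, x i = ∏ k, y k →
    ∃ w : Fin n → Fin m → ℕ, (∀ i k, w i k ≠ 0) ∧ (∀ i, ∏ k, w i k = x i) ∧
      (∀ k, ∏ i, w i k = y k) := by
  intro n
  induction n with
  | zero =>
    intro m x y _ _ h
    refine ⟨fun i => Fin.elim0 i, fun i => Fin.elim0 i, fun i => Fin.elim0 i, fun k => ?_⟩
    have h1 : ∏ k, y k = 1 := by simpa using h.symm
    have hdvd : y k ∣ ∏ k, y k := dvd_prod_of_mem _ (mem_univ k)
    rw [h1] at hdvd
    simpa using (Nat.dvd_one.1 hdvd).symm
  | succ n ih =>
    intro m x y hx hy h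
    obtain ⟨d, hd, hdprod⟩ := exists_split y (x 0) (by
      rw [← h, Fin.prod_univ_succ]; exact dvd_mul_right _ _)
    have hd0 : ∀ k, d k ≠ 0 := fun k hk => hy k (by simpa [hk] using hd k)
    choose e he using hd
    have he0 : ∀ k, e k ≠ 0 := fun k hk => hy k (by rw [he k, hk, mul_zero])
    have hrest : ∏ i : Fin n, x i.succ = ∏ k, e k := by
      have h1 : ∏ k, y k = x 0 * ∏ k, e k := by
        rw [← hdprod, ← prod_mul_distrib]
        exact prod_congr rfl (fun k _ => he k)
      rw [Fin.prod_univ_succ, h1] at h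
      exact Nat.eq_of_mul_eq_mul_left (Nat.pos_of_ne_zero (hx 0)) h
    obtain ⟨w, hw0, hwr, hwc⟩ := ih (fun i => x i.succ) e (fun i => hx _) he0 hrest
    refine ⟨Fin.cons d w, ?_, ?_, ?_⟩
    · intro i k
      induction i using Fin.cases with
      | zero => simpa using hd0 k
      | succ i => simpa using hw0 i k
    · intro i
      induction i using Fin.cases with
      | zero => simpa using hdprod
      | succ i => simpa using hwr i
    · intro k
      rw [Fin.prod_univ_succ]
      simp [hwc k, ← he k]

end Vale.Agent.P031.Collision
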