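import Vale.Agent.P031.Collision.Sweep

/-!
# P031 Q2, section 7: the sieve gives the step bounds
-/

open scoped Classical
noncomputable section

namespace Vale.Agent.P031.Collision

open Finset Real

/-- The four consequences of Brun's sieve used by the sweep. -/
structure SieveBounds (C : ℝ) : Prop where
  weight2 : ∀ (L s' s : ℝ) (A : ℕ) (S : Finset ℕ), 2 ≤ L → 0 ≤ s' → s ≤ 2 * L → 1 ≤ A →
    (∀ r ∈ S, r.Prime ∧ s' < lam r ∧ (A * r + 1).Prime ∧ lam ((A * r + 1 : ℕ) : ℝ) ≤ s) →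
    ∑ r ∈ S, (1 : ℝ) / r ≤ L ^ C * exp (s - 2 * s')
  weight3 : ∀ (L s' s : ℝ) (A B : ℕ) (S : Finset ℕ), 2 ≤ L → 0 ≤ s' → s ≤ 2 * L → 1 ≤ A →
    1 ≤ B → A ≠ B →
    (∀ r ∈ S, r.Prime ∧ s' < lam r ∧ ((A * r + 1).Prime ∧ lam ((A * r + 1 : ℕ) : ℝ) ≤ s) ∧
      ((B * r + 1).Prime ∧ lam ((B * r + 1 : ℕ) : ℝ) ≤ s)) →
    ∑ r ∈ S, (1 : ℝ) / r ≤ L ^ C * exp (s - 3 * s')
  count2 : ∀ (L s' s : ℝ) (A : ℕ) (S : Finset ℕ) (X : ℝ), 2 ≤ L → 0 ≤ s' → s ≤ 2 * L → 1 ≤ A →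
    0 ≤ X → (∀ r ∈ S, (r : ℝ) ≤ X) →
    (∀ r ∈ S, r.Prime ∧ s' < lam r ∧ (A * r + 1).Prime ∧ lam ((A * r + 1 : ℕ) : ℝ) ≤ s) →
    (S.card : ℝ) ≤ L ^ C * X * exp (-(2 * s'))
  count3 : ∀ (L s' s : ℝ) (A B : ℕ) (S : Finset ℕ) (X : ℝ), 2 ≤ L → 0 ≤ s' → s ≤ 2 * L → 1 ≤ A →
    1 ≤ B → A ≠ B → 0 ≤ X → (∀ r ∈ S, (r : ℝ) ≤ X) →
    (∀ r ∈ S, r.Prime ∧ s' < lam r ∧ ((A * r + 1).Prime ∧ lam ((A * r + 1 : ℕ) : ℝ) ≤ s) ∧
      ((B * r + 1).Prime ∧ lam ((B * r + 1 : ℕ) : ℝ) ≤ s)) →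
    (S.card : ℝ) ≤ L ^ C * X * exp (-(3 * s'))

/-- The counting weight: values at most `Z`, normalised. -/
def countWeight (L Z : ℝ) (v : ℕ) : ℝ := if (v : ℝ) ≤ Z then exp L / Z else 0

theorem countWeight_nonneg {L Z : ℝ} (hZ : 0 ≤ Z) (v : ℕ) : 0 ≤ countWeight L Z v := by
  unfold countWeight
  split
  · positivity
  · rfl

namespace Frame

variable (F : Frame)

theorem step_inv {C L κ : ℝ} (hC : SieveBounds C) (hL : 2 ≤ L) {s : ℝ} (hs : s ≤ 2 * L)
    (hs' : F.width + F.rho + 1 ≤ s) (hw : 0 ≤ F.width + F.rho + 1)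
    (hκ : C * log L + 3 * (F.width + F.rho + 1) ≤ κ) :
    F.StepAt s (fun v => 1 / (v : ℝ)) κ := by
  intro A M hA hM S hS
  have hLp : L ^ C = exp (C * log L) := by rw [rpow_def_of_pos (by linarith), mul_comm]
  have hsum : ∑ r ∈ S, 1 / ((r * M : ℕ) : ℝ) = (∑ r ∈ S, (1 : ℝ) / r) / M := by
    rw [sum_div]
    refine sum_congr rfl fun r _ => ?_
    push_cast
    rw [div_div]
  have hM' : (0 : ℝ) < M := by exact_mod_cast hM
  constructor
  · rw [hsum]
    gcongr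
    refine (hC.weight2 L (s - F.width - F.rho - 1) s A S hL (by linarith) hs hA
      (fun r hr => ⟨(hS r hr).1, (hS r hr).2.1, (hS r hr).2.2.2⟩)).trans ?_
    rw [hLp, ← exp_add]
    gcongr
    linarith
  · intro B hB hAB hS'
    rw [hsum]
    gcongr
    refine (hC.weight3 L (s - F.width - F.rho - 1) s A B S hL (by linarith) hs hA hB hAB
      (fun r hr => ⟨(hS r hr).1, (hS r hr).2.1, (hS r hr).2.2.2, hS' r hr⟩)).trans ?_
    rw [hLp, ← exp_add]
    gcongr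
    linarith

theorem step_count {C L Z κ : ℝ} (hC : SieveBounds C) (hL : 2 ≤ L) (hZ : 0 < Z) {s : ℝ}
    (hs : s ≤ 2 * L) (hs' : F.width + F.rho + 1 ≤ s) (hw : 0 ≤ F.width + F.rho + 1)
    (hκ : C * log L + 3 * (F.width + F.rho + 1) + (L - s) ≤ κ) :
    F.StepAt s (countWeight L Z) κ := by
  intro A M hA hM S hS
  have hLp : L ^ C = exp (C * log L) := by rw [rpow_def_of_pos (by linarith), mul_comm]
  have hM' : (0 : ℝ) < M := by exact_mod_cast hM
  set S0 := S.filter fun r => ((r * M : ℕ) : ℝ) ≤ Z with hS0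
  have hsum : ∑ r ∈ S, countWeight L Z (r * M) = exp L / Z * S0.card := by
    simp only [countWeight]
    rw [← sum_filter, sum_const, nsmul_eq_mul, mul_comm]
  have hX : ∀ r ∈ S0, (r : ℝ) ≤ Z / M := by
    intro r hr
    rw [le_div_iff₀ hM']
    exact_mod_cast (mem_filter.1 hr).2
  constructor
  · rw [hsum]
    refine (mul_le_mul_of_nonneg_left (hC.count2 L (s - F.width - F.rho - 1) s A S0 (Z / M) hL
      (by linarith) hs hA (by positivity) hX (fun r hr => ?_)) (by positivity)).trans ?_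
    · have h := hS r (mem_filter.1 hr).1
      exact ⟨h.1, h.2.1, h.2.2.2⟩
    · rw [hLp]
      calc exp L / Z * (exp (C * log L) * (Z / M) * exp (-(2 * (s - F.width - F.rho - 1))))
          = exp (L + C * log L + -(2 * (s - F.width - F.rho - 1))) / M := by
            rw [exp_add, exp_add]; field_simp
        _ ≤ exp (κ - s) / M := by gcongr; linarith
  · intro B hB hAB hS'
    rw [hsum]
    refine (mul_le_mul_of_nonneg_left (hC.count3 L (s - F.width - F.rho - 1) s A B S0 (Z / M) hL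
      (by linarith) hs hA hB hAB (by positivity) hX (fun r hr => ?_)) (by positivity)).trans ?_
    · have h := hS r (mem_filter.1 hr).1
      exact ⟨h.1, h.2.1, h.2.2.2, hS' r (mem_filter.1 hr).1⟩
    · rw [hLp]
      calc exp L / Z * (exp (C * log L) * (Z / M) * exp (-(3 * (s - F.width - F.rho - 1))))
          = exp (L + C * log L + -(3 * (s - F.width - F.rho - 1))) / M := by
            rw [exp_add, exp_add]; field_simp
        _ ≤ exp (κ - 2 * s) / M := by gcongr; linarith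

end Frame

end Vale.Agent.P031.Collision
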