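import Vale.Agent.P031.Collision.Refine
import Vale.Agent.P031.Collision.Cells
import Vale.Agent.P031.Collision.Profile
import Vale.Agent.P031.Collision.Steps
import Vale.Agent.P031.Geometry

/-!
# P031 Q2, section 7: residual lists

Two lists of residual primes with the same product of `p - 1`, up to small parts. The sum over
the common values is bounded by the weighted slack of the first list.
-/

open scoped Classical
noncomputable section

namespace Vale.Agent.P031

/-- The part of a value below the bottom threshold. -/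
def SmallPart (P : Params) (u : ℕ) : Prop :=
  u ≠ 0 ∧ (u : ℝ) ≤ Real.exp (Real.exp (2 * P.L)) ∧
    ∀ r ∈ u.primeFactors, lam (r : ℝ) ≤ P.Tb

namespace Collision

open Finset Real

/-- A residual prime. -/
def Level (P : Params) (p : ℕ) : Prop :=
  p.Prime ∧ P.Tb < lam (p : ℝ) ∧ lam (p : ℝ) ≤ P.L + 1 ∧ P.Normal p

/-- The residual configuration of a collision with top scale at least `lo`. -/
def Resid (P : Params) (lo : ℝ) (A B : Finset ℕ) (v : ℕ) : Prop :=
  ∃ (a b : ℕ) (α : Fin a → ℕ) (β : Fin b → ℕ) (u u' : ℕ) (ha : 0 < a),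
    a ≤ P.K' ∧ b ≤ P.K' ∧ StrictAnti α ∧ (∀ i, Level P (α i)) ∧ (∀ k, Level P (β k)) ∧
    (∀ i k, α i ≠ β k) ∧ (∀ k, β k ≤ α ⟨0, ha⟩) ∧ SmallPart P u ∧ SmallPart P u' ∧
    v = (∏ i, (α i - 1)) * u ∧ v = (∏ k, (β k - 1)) * u' ∧
    ∑ i : Fin a, fordA i * lam (α i : ℝ) ≤ -(P.eta * P.L) ∧ lo ≤ lam (α ⟨0, ha⟩ : ℝ) ∧
    A = univ.image α ∧ B = univ.image β

/-- The primes attached to the rows of a matrix. -/
def rowSet (F : Frame) (w : F.Mat) : Finset ℕ :=
  univ.image fun i : Fin F.a => F.rowProd w i.castSucc + 1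

/-- The primes attached to the columns of a matrix. -/
def colSet (F : Frame) (w : F.Mat) : Finset ℕ :=
  univ.image fun k : Fin F.b => F.colProd w k.castSucc + 1

theorem omegaIoc_eq_zero {a b : ℝ} {n : ℕ} (h : ∀ r ∈ n.primeFactors, lam (r : ℝ) ≤ a) :
    omegaIoc a b n = 0 := by
  unfold omegaIoc
  rw [List.length_eq_zero_iff, List.filter_eq_nil_iff]
  intro r hr
  have := h r (Nat.mem_primeFactors.2 ⟨Nat.prime_of_mem_primeFactorsList hr,
    Nat.dvd_of_mem_primeFactorsList hr, fun h0 => by simp [h0] at hr⟩)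
  simp only [decide_eq_true_eq, not_and, not_le]
  intro h1
  linarith

theorem omegaIoc_one (a b : ℝ) : omegaIoc a b 1 = 0 := by simp [omegaIoc]

theorem omegaIoc_prod {ι : Type*} (a b : ℝ) (s : Finset ι) (f : ι → ℕ) (hf : ∀ i ∈ s, f i ≠ 0) :
    omegaIoc a b (∏ i ∈ s, f i) = ∑ i ∈ s, omegaIoc a b (f i) := by
  induction s using Finset.induction_on with
  | empty => simp [omegaIoc_one]
  | insert i s hi ih =>
    rw [prod_insert hi, sum_insert hi, omegaIoc_mul a b (hf i (mem_insert_self _ _))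
      (prod_ne_zero_iff.2 fun j hj => hf j (mem_insert_of_mem hj)),
      ih fun j hj => hf j (mem_insert_of_mem hj)]

theorem three_le_of_lam_pos {p : ℕ} (hp : p.Prime) (h : 0 < lam (p : ℝ)) : 3 ≤ p := by
  rcases eq_or_lt_of_le hp.two_le with h2 | h2
  · exfalso
    subst h2
    have : lam ((2 : ℕ) : ℝ) ≤ 0 := by
      have h1 : Real.log 2 ≤ 1 := by
        have := Real.log_le_sub_one_of_pos (show (0 : ℝ) < 2 by norm_num)
        linarith
      simpa [lam] using Real.log_nonpos (Real.log_nonneg (by norm_num)) h1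
    linarith
  · exact h2

theorem abs_fordA_le (i : ℕ) : |fordA i| ≤ (i : ℝ) + 1 := by
  rcases Nat.eq_zero_or_pos i with rfl | hi
  · simp [fordA_zero]
  · rw [abs_of_nonneg (fordA_nonneg hi)]
    exact (fordA_le_log i).trans (Real.log_le_self (by positivity))

/-- The number of grid intervals above the bottom threshold. -/
def gridN (P : Params) : ℕ := P.J + 1

/-- The grid index of a scale. -/
def scaleIdx (P : Params) (t : ℝ) : ℕ := ⌈(t - P.Tb) / P.D⌉₊ - 1

/-- The grid scale of an index. -/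
def scaleOf (P : Params) (e : ℕ) : ℝ := P.Tb + ((e : ℝ) + 1) * P.D

/-- Size bound for all values in question. -/
def sizeM (P : Params) : ℕ := ⌊Real.exp (Real.exp (3 * P.L))⌋₊

/-- A signature: the two lists of grid indices. -/
abbrev Sig (P : Params) :=
  (Σ a : Fin (P.K' + 1), Fin a → Fin (gridN P)) × (Σ b : Fin (P.K' + 1), Fin b → Fin (gridN P))

/-- The frame of a signature. -/
def sigFrame (P : Params) (σ : Sig P) : Frame where
  a := σ.1.1
  b := σ.2.1
  sa := fun i => scaleOf P (σ.1.2 i)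
  sb := fun k => scaleOf P (σ.2.2 k)
  width := P.D
  rho := 3 * Real.log P.L
  Tb := P.Tb
  M := sizeM P
  N := gridN P
  lo := fun j => P.Tb + j * P.D
  hi := fun j => P.Tb + (j + 1) * P.D
  budget := fun j => (1 + P.theta) * P.D * above (fun i => (σ.1.2 i : ℕ)) j

/-- The numerical facts needed of the parameters. -/
structure Big (P : Params) : Prop where
  D1 : 1 ≤ P.D
  Tb0 : 0 < P.Tb
  Te_le : P.Te ≤ P.Tb
  top : P.L + 1 ≤ P.Tb + gridN P * P.D
  size : ((P.K' : ℝ) * Real.exp (P.L + 1) + Real.exp (2 * P.L)) ≤ Real.exp (3 * P.L)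
  logL : 0 ≤ Real.log P.L

theorem Tb_eq (P : Params) : P.Tb = ((2 ^ (6 * P.K) : ℕ) : ℝ) * P.D := by
  unfold Params.Tb Params.D Params.J
  push_cast
  rw [show 18 * P.K = 6 * P.K + 12 * P.K by omega, pow_add]
  field_simp

theorem scaleIdx_spec {P : Params} (hP : Big P) {t : ℝ} (h1 : P.Tb < t) (h2 : t ≤ P.L + 1) :
    scaleIdx P t < gridN P ∧ scaleOf P (scaleIdx P t) - P.D < t ∧
      t ≤ scaleOf P (scaleIdx P t) := by
  have hD : 0 < P.D := lt_of_lt_of_le one_pos hP.D1
  set x := (t - P.Tb) / P.D with hx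
  have hx0 : 0 < x := div_pos (by linarith) hD
  have hxN : x ≤ gridN P := by
    rw [hx, div_le_iff₀ hD]
    linarith [hP.top]
  have hc1 : 1 ≤ ⌈x⌉₊ := Nat.one_le_ceil_iff.2 hx0
  have hxD : x * P.D = t - P.Tb := div_mul_cancel₀ _ hD.ne'
  have hcast : ((scaleIdx P t : ℕ) : ℝ) + 1 = (⌈x⌉₊ : ℝ) := by
    unfold scaleIdx
    rw [← hx, Nat.cast_sub hc1]
    push_cast; ring
  refine ⟨?_, ?_, ?_⟩
  · have : ⌈x⌉₊ ≤ gridN P := Nat.ceil_le.2 hxN
    unfold scaleIdx
    rw [← hx]
    omega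
  · have : ((scaleIdx P t : ℕ) : ℝ) < x := by
      refine Nat.lt_ceil.1 ?_
      unfold scaleIdx
      rw [← hx]
      omega
    unfold scaleOf
    nlinarith
  · unfold scaleOf
    rw [hcast]
    nlinarith [Nat.le_ceil x]

theorem scaleIdx_mono {P : Params} (hP : Big P) {t t' : ℝ} (h : t ≤ t') :
    scaleIdx P t ≤ scaleIdx P t' := by
  have hD : 0 < P.D := lt_of_lt_of_le one_pos hP.D1
  exact Nat.sub_le_sub_right (Nat.ceil_mono (by gcongr)) 1

theorem rowCap_last (F : Frame) : F.rowCap (Fin.last F.a) = F.Tb := Fin.lastCases_last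

theorem rowCap_castSucc (F : Frame) (i : Fin F.a) : F.rowCap i.castSucc = F.sa i :=
  Fin.lastCases_castSucc i

theorem colCap_last (F : Frame) : F.colCap (Fin.last F.b) = F.Tb := Fin.lastCases_last

theorem colCap_castSucc (F : Frame) (k : Fin F.b) : F.colCap k.castSucc = F.sb k :=
  Fin.lastCases_castSucc k

/-- Properties of the signature of a residual configuration. -/
def GoodSig (P : Params) (lo : ℝ) (σ : Sig P) : Prop :=
  Antitone (fun i => (σ.1.2 i : ℕ)) ∧
    ∑ i : Fin σ.1.1, fordA i * scaleOf P (σ.1.2 i)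
      ≤ -(P.eta * P.L) + ((P.K' : ℝ) + 1) ^ 2 * P.D ∧
    ∃ ha : 0 < (σ.1.1 : ℕ), lo ≤ scaleOf P (σ.1.2 ⟨0, ha⟩) ∧
      ∀ k, scaleOf P (σ.2.2 k) ≤ scaleOf P (σ.1.2 ⟨0, ha⟩)

theorem prime_factor_le_lam {p r : ℕ} (hp : p.Prime) (hr : r.Prime) (h : r ∣ p - 1) :
    lam (r : ℝ) ≤ lam (p : ℝ) :=
  lam_le_lam_of_le hr.two_le
    ((Nat.le_of_dvd (by have := hp.two_le; omega) h).trans (Nat.sub_le _ _))

theorem lineOK_of_level {P : Params} (hP : Big P) (F : Frame) (hw : F.width = P.D)
    (hr : F.rho = 3 * Real.log P.L) {p : ℕ} (h : Level P p) :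
    F.LineOK (scaleOf P (scaleIdx P (lam (p : ℝ)))) (p - 1) := by
  obtain ⟨hp, hlo, hhi, hn⟩ := h
  obtain ⟨-, h1, h2⟩ := scaleIdx_spec hP hlo hhi
  have h3 := three_le_of_lam_pos hp (hP.Tb0.trans hlo)
  have hsub : p - 1 + 1 = p := by omega
  refine ⟨by rw [hsub]; exact hp, by rw [hsub, hw]; exact h1.le, by rw [hsub]; exact h2, ?_⟩
  obtain ⟨r, hrmem, hreq⟩ := Finset.exists_mem_eq_sup (p - 1).primeFactors
    (Nat.nonempty_primeFactors.2 (by omega)) id
  refine ⟨r, Nat.prime_of_mem_primeFactors hrmem, Nat.dvd_of_mem_primeFactors hrmem, ?_⟩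
  rw [hsub, hr]
  have hmax : maxPrime (p - 1) = r := hreq
  have := hn.1
  rwa [hmax] at this

/-- Every residual configuration gives a good signature and an admissible matrix. -/
theorem exists_sig {P : Params} (hP : Big P) {lo : ℝ} {SA SB : Finset ℕ} {v : ℕ}
    (h : Resid P lo SA SB v) :
    ∃ σ : Sig P, GoodSig P lo σ ∧
      ∃ w ∈ (sigFrame P σ).Adm univ univ, (sigFrame P σ).total w = v ∧
        rowSet (sigFrame P σ) w = SA ∧ colSet (sigFrame P σ) w = SB := by
  obtain ⟨a, b, α, β, u, u', ha, haK, hbK, hanti, hα, hβ, hne, htop, hu, hu', hva, hvb, hsl, hlo,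
    hSA, hSB⟩ := h
  let e : Fin a → Fin (gridN P) := fun i =>
    ⟨scaleIdx P (lam (α i : ℝ)), (scaleIdx_spec hP (hα i).2.1 (hα i).2.2.1).1⟩
  let e' : Fin b → Fin (gridN P) := fun k =>
    ⟨scaleIdx P (lam (β k : ℝ)), (scaleIdx_spec hP (hβ k).2.1 (hβ k).2.2.1).1⟩
  let σ : Sig P := (⟨⟨a, Nat.lt_succ_of_le haK⟩, e⟩, ⟨⟨b, Nat.lt_succ_of_le hbK⟩, e'⟩)
  have hsa : ∀ i, lam (α i : ℝ) ≤ scaleOf P (e i) ∧ scaleOf P (e i) - P.D ≤ lam (α i : ℝ) :=
    fun i => ⟨(scaleIdx_spec hP (hα i).2.1 (hα i).2.2.1).2.2,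
      ((scaleIdx_spec hP (hα i).2.1 (hα i).2.2.1).2.1).le⟩
  have hD : 0 < P.D := lt_of_lt_of_le one_pos hP.D1
  refine ⟨σ, ⟨?_, ?_, ha, ?_, ?_⟩, ?_⟩
  · intro i j hij
    refine scaleIdx_mono hP (lam_le_lam_of_le (hα j).1.two_le ?_)
    exact hanti.antitone hij
  · show ∑ i : Fin a, fordA i * scaleOf P (e i) ≤ _
    have hterm : ∀ i : Fin a, fordA i * scaleOf P (e i)
        ≤ fordA i * lam (α i : ℝ) + ((P.K' : ℝ) + 1) * P.D := by
      intro i
      have h1 := abs_fordA_le (i : ℕ)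
      have h2 : ((i : ℕ) : ℝ) + 1 ≤ (P.K' : ℝ) + 1 := by
        have : ((i : ℕ) : ℝ) ≤ P.K' := by exact_mod_cast (i.isLt.le.trans haK)
        linarith
      have h3 : fordA i * (scaleOf P (e i) - lam (α i : ℝ))
          ≤ |fordA i| * (scaleOf P (e i) - lam (α i : ℝ)) :=
        mul_le_mul_of_nonneg_right (le_abs_self _) (by linarith [(hsa i).1])
      have h4 : |fordA i| * (scaleOf P (e i) - lam (α i : ℝ)) ≤ ((P.K' : ℝ) + 1) * P.D :=
        mul_le_mul (h1.trans h2) (by linarith [(hsa i).2]) (by linarith [(hsa i).1]) (by positivity)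
      nlinarith
    refine (sum_le_sum fun i _ => hterm i).trans ?_
    rw [sum_add_distrib, sum_const, card_univ, Fintype.card_fin, nsmul_eq_mul]
    have : (a : ℝ) ≤ (P.K' : ℝ) + 1 := by
      have : (a : ℝ) ≤ P.K' := by exact_mod_cast haK
      linarith
    have h5 : (a : ℝ) * (((P.K' : ℝ) + 1) * P.D) ≤ ((P.K' : ℝ) + 1) * (((P.K' : ℝ) + 1) * P.D) :=
      mul_le_mul_of_nonneg_right this (by positivity)
    nlinarith
  · exact hlo.trans (hsa ⟨0, ha⟩).1
  · intro k
    have hm : scaleIdx P (lam (β k : ℝ)) ≤ scaleIdx P (lam (α ⟨0, ha⟩ : ℝ)) :=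
      scaleIdx_mono hP (lam_le_lam_of_le (hβ k).1.two_le (htop k))
    have hm' : ((e' k : ℕ) : ℝ) ≤ ((e ⟨0, ha⟩ : ℕ) : ℝ) := by exact_mod_cast hm
    show scaleOf P (e' k) ≤ scaleOf P (e ⟨0, ha⟩)
    unfold scaleOf
    nlinarith
  -- the matrix
  let F := sigFrame P σ
  let x : Fin (a + 1) → ℕ := Fin.snoc (fun i => α i - 1) u
  let y : Fin (b + 1) → ℕ := Fin.snoc (fun k => β k - 1) u'
  have hx0 : ∀ i, x i ≠ 0 := by
    intro i
    induction i using Fin.lastCases with
    | last => simpa [x] using hu.1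
    | cast i =>
      have := (hα i).1.two_le
      simp [x]; omega
  have hy0 : ∀ k, y k ≠ 0 := by
    intro k
    induction k using Fin.lastCases with
    | last => simpa [y] using hu'.1
    | cast k =>
      have := (hβ k).1.two_le
      simp [y]; omega
  have hxprod : ∏ i, x i = v := by
    rw [Fin.prod_univ_castSucc]
    simp [x, ← hva]
  have hyprod : ∏ k, y k = v := by
    rw [Fin.prod_univ_castSucc]
    simp [y, ← hvb]
  obtain ⟨w, hw0, hwr, hwc⟩ := exists_matrix x y hx0 hy0 (hxprod.trans hyprod.symm)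
  have hv0 : v ≠ 0 := by rw [← hxprod]; exact prod_ne_zero_iff.2 fun i _ => hx0 i
  have htot : F.total w = v := by
    show ∏ i, ∏ k, w i k = v
    rw [← hxprod]
    exact prod_congr rfl fun i _ => hwr i
  have hvM : v ≤ sizeM P := by
    refine Nat.le_floor ?_
    have h1 : ∀ i, ((α i - 1 : ℕ) : ℝ) ≤ Real.exp (Real.exp (P.L + 1)) := by
      intro i
      have hle : ((α i - 1 : ℕ) : ℝ) ≤ (α i : ℝ) := by exact_mod_cast Nat.sub_le _ _
      refine hle.trans ?_
      exact (natPrime_le_expexp (hα i).1).2 (hα i).2.2.1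
    have h2 : ((∏ i, (α i - 1) : ℕ) : ℝ) ≤ Real.exp ((P.K' : ℝ) * Real.exp (P.L + 1)) := by
      rw [Nat.cast_prod]
      refine (prod_le_prod (fun i _ => Nat.cast_nonneg _) fun i _ => h1 i).trans ?_
      rw [prod_const, card_univ, Fintype.card_fin, ← Real.exp_nat_mul]
      gcongr
    rw [hva, Nat.cast_mul]
    refine (mul_le_mul h2 hu.2.1 (Nat.cast_nonneg _) (Real.exp_pos _).le).trans ?_
    rw [← Real.exp_add]
    exact Real.exp_le_exp.2 hP.size
  have hcolcap : ∀ i k, ∀ r : ℕ, r.Prime → r ∣ w i k →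
      lam (r : ℝ) ≤ F.rowCap i ∧ lam (r : ℝ) ≤ F.colCap k := by
    intro i k r hr hd
    have hi : r ∣ x i := hwr i ▸ hd.trans (dvd_prod_of_mem (fun k => w i k) (mem_univ k))
    have hk : r ∣ y k := hwc k ▸ hd.trans (dvd_prod_of_mem (fun i => w i k) (mem_univ i))
    constructor
    · induction i using Fin.lastCases with
      | last =>
        simp only [x, Fin.snoc_last] at hi
        exact le_of_le_of_eq (hu.2.2 r (Nat.mem_primeFactors.2 ⟨hr, hi, hu.1⟩))
          (rowCap_last F).symm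
      | cast i =>
        simp only [x, Fin.snoc_castSucc] at hi
        exact le_of_le_of_eq ((prime_factor_le_lam (hα i).1 hr hi).trans (hsa i).1)
          (rowCap_castSucc F i).symm
    · induction k using Fin.lastCases with
      | last =>
        simp only [y, Fin.snoc_last] at hk
        exact le_of_le_of_eq (hu'.2.2 r (Nat.mem_primeFactors.2 ⟨hr, hk, hu'.1⟩))
          (colCap_last F).symm
      | cast k =>
        simp only [y, Fin.snoc_castSucc] at hk
        exact le_of_le_of_eq ((prime_factor_le_lam (hβ k).1 hr hk).trans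
          (scaleIdx_spec hP (hβ k).2.1 (hβ k).2.2.1).2.2) (colCap_castSucc F k).symm
  have hbase : F.Base w := by
    refine ⟨fun i k => ⟨hw0 i k, ?_⟩, fun i k r hr hd => le_min (hcolcap i k r hr hd).1
      (hcolcap i k r hr hd).2, fun j _ => ?_⟩
    · refine (Nat.le_of_dvd (Nat.pos_of_ne_zero hv0) ?_).trans hvM
      rw [← htot]
      exact (dvd_prod_of_mem (fun k => w i k) (mem_univ k)).trans
        (dvd_prod_of_mem (fun i => ∏ k, w i k) (mem_univ i))
    rw [htot]
    show (omegaIoc (P.Tb + j * P.D) (P.Tb + (j + 1) * P.D) v : ℝ)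
      ≤ (1 + P.theta) * P.D * above (fun i => (e i : ℕ)) j
    set A := P.Tb + (j : ℝ) * P.D
    set B := P.Tb + ((j : ℝ) + 1) * P.D
    have hAge : P.Tb ≤ A := by
      have : (0 : ℝ) ≤ (j : ℝ) * P.D := by positivity
      simp only [A]; linarith
    rw [hva, omegaIoc_mul A B
      (prod_ne_zero_iff.2 fun i _ => by have := (hα i).1.two_le; omega) hu.1,
      omegaIoc_eq_zero (n := u) fun r hr => (hu.2.2 r hr).trans hAge, add_zero,
      omegaIoc_prod A B _ _ fun i _ => by have := (hα i).1.two_le; omega]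
    push_cast
    have hsplit : ∀ i : Fin a, (omegaIoc A B (α i - 1) : ℝ)
        ≤ if j ≤ (e i : ℕ) then (1 + P.theta) * P.D else 0 := by
      intro i
      by_cases hc : A < lam (α i : ℝ)
      · have hje : j ≤ (e i : ℕ) := by
          by_contra hlt
          push Not at hlt
          have : ((e i : ℕ) : ℝ) + 1 ≤ j := by exact_mod_cast hlt
          have h1 := (hsa i).1
          unfold scaleOf at h1
          simp only [A] at hc
          nlinarith
        rw [if_pos hje]
        have hj' := (hα i).2.2.2.2 (2 ^ (6 * P.K) + j) (by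
          refine hP.Te_le.trans ?_
          rw [Tb_eq]
          push_cast
          nlinarith [(Nat.cast_nonneg j : (0 : ℝ) ≤ j)])
        have hA' : ((2 ^ (6 * P.K) + j : ℕ) : ℝ) * P.D = A := by
          simp only [A]; rw [Tb_eq]; push_cast; ring
        have hB' : (((2 ^ (6 * P.K) + j : ℕ) : ℝ) + 1) * P.D = B := by
          simp only [B]; rw [Tb_eq]; push_cast; ring
        rw [hA', hB'] at hj'
        exact hj'.1
      · push Not at hc
        rw [omegaIoc_eq_zero fun r hr =>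
          (prime_factor_le_lam (hα i).1 (Nat.prime_of_mem_primeFactors hr)
            (Nat.dvd_of_mem_primeFactors hr)).trans hc]
        have hθ : 0 ≤ P.theta := by unfold Params.theta; positivity
        split
        · push_cast; positivity
        · simp
    refine (sum_le_sum fun i _ => hsplit i).trans ?_
    rw [← sum_filter, sum_const, nsmul_eq_mul]
    unfold above
    rw [mul_comm]
  have hrowv : ∀ i : Fin F.a, F.rowProd w i.castSucc = α i - 1 := fun (i : Fin a) =>
    (hwr i.castSucc).trans (by simp [x])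
  have hcolv : ∀ k : Fin F.b, F.colProd w k.castSucc = β k - 1 := fun (k : Fin b) =>
    (hwc k.castSucc).trans (by simp [y])
  refine ⟨w, F.mem_Adm.2 ⟨hbase, fun i _ => ?_, fun k _ => ?_,
    fun i _ k _ => ?_⟩, htot, ?_, ?_⟩
  · show F.LineOK (scaleOf P (e i)) _
    rw [hrowv i]
    exact lineOK_of_level hP F rfl rfl (hα i)
  · show F.LineOK (scaleOf P (e' k)) _
    rw [hcolv k]
    exact lineOK_of_level hP F rfl rfl (hβ k)
  · rw [hrowv i, hcolv k]
    have h1 := (hα i).1.two_le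
    have h2 := (hβ k).1.two_le
    have := hne i k
    omega
  · rw [hSA]
    refine (image_congr fun i _ => ?_ : (univ : Finset (Fin F.a)).image
      (fun i => F.rowProd w i.castSucc + 1) = (univ : Finset (Fin F.a)).image α)
    rw [hrowv i]
    have := (hα i).1.two_le
    omega
  · rw [hSB]
    refine (image_congr fun i _ => ?_ : (univ : Finset (Fin F.b)).image
      (fun i => F.colProd w i.castSucc + 1) = (univ : Finset (Fin F.b)).image β)
    rw [hcolv i]
    have := (hβ i).1.two_le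
    omega

/-- The sum over one signature. -/
theorem sig_sum : ∃ C : ℝ, 0 ≤ C ∧ ∀ (P : Params), Big P → ∀ (lo : ℝ) (σ : Sig P),
    GoodSig P lo σ → ∀ (f : ℕ → ℝ) (κ : ℝ), 0 ≤ κ → (∀ v, 0 ≤ f v) →
    (∀ s, (sigFrame P σ).IsScale s → (sigFrame P σ).StepAt s (fun v => 1 / (v : ℝ)) κ) →
    (∀ s, (sigFrame P σ).IsScale s → lo ≤ s → (sigFrame P σ).StepAt s f κ) →
    ∑ w ∈ (sigFrame P σ).Adm univ univ, f ((sigFrame P σ).total w) ≤
      exp (-(P.eta * P.L) + (2 * (P.K' + 1) * (κ + 2 * (P.K' + 1))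
        + (P.K' + 1) ^ 2 * (2 * P.Tb + 2 * P.D + C) + C * (P.K' + 1) * gridN P
        + P.theta * (gridN P * P.D) * (P.K' + 1) ^ 2)) := by
  obtain ⟨C, hC0, hC⟩ := Frame.free_le
  refine ⟨C, hC0, ?_⟩
  intro P hP lo σ hσ f κ hκ hf0 hinv hf
  obtain ⟨hanti, hslack, ha, hlo, htop⟩ := hσ
  set F := sigFrame P σ with hF
  set a : ℕ := (σ.1.1 : ℕ) with ha_def
  set b : ℕ := (σ.2.1 : ℕ) with hb_def
  set k : ℝ := (P.K' : ℝ) + 1 with hk
  set e : Fin a → ℕ := fun i => (σ.1.2 i : ℕ) with he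
  set e' : Fin b → ℕ := fun i => (σ.2.2 i : ℕ) with he'
  have hD : 0 < P.D := lt_of_lt_of_le one_pos hP.D1
  have haN : ∀ i, e i < gridN P := fun i => (σ.1.2 i).isLt
  have hbN : ∀ i, e' i < gridN P := fun i => (σ.2.2 i).isLt
  have hak : (a : ℝ) + 1 ≤ k := by
    have : a ≤ P.K' := Nat.le_of_lt_succ σ.1.1.isLt
    have : (a : ℝ) ≤ P.K' := by exact_mod_cast this
    linarith
  have hbk : (b : ℝ) + 1 ≤ k := by
    have : b ≤ P.K' := Nat.le_of_lt_succ σ.2.1.isLt
    have : (b : ℝ) ≤ P.K' := by exact_mod_cast this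
    linarith
  let z : ℕ → ℝ := fun j => 1 / ((max (above e j) 1 : ℕ) : ℝ)
  have hz : ∀ j, 0 < z j ∧ z j ≤ 1 := by
    intro j
    have h1 : (1 : ℝ) ≤ ((max (above e j) 1 : ℕ) : ℝ) := by exact_mod_cast le_max_right _ 1
    exact ⟨by simp only [z]; positivity, by simp only [z]; rw [div_le_one (by linarith)]; exact h1⟩
  have hrow : ∀ j, F.rowsAbove (F.lo j) = above e j := by
    intro j
    show (univ.filter fun i : Fin a => P.Tb + (j : ℝ) * P.D < scaleOf P (e i)).card = _
    unfold above scaleOf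
    congr 1
    ext i
    simp only [mem_filter, mem_univ, true_and]
    constructor
    · intro h
      have h2 : (j : ℝ) < (e i : ℝ) + 1 := lt_of_mul_lt_mul_right (by linarith) hD.le
      exact Nat.lt_succ_iff.1 (by exact_mod_cast h2)
    · intro h
      have h2 : (j : ℝ) ≤ e i := by exact_mod_cast h
      nlinarith
  have hcol : ∀ j, F.colsAbove (F.lo j) = above e' j := by
    intro j
    show (univ.filter fun i : Fin b => P.Tb + (j : ℝ) * P.D < scaleOf P (e' i)).card = _
    unfold above scaleOf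
    congr 1
    ext i
    simp only [mem_filter, mem_univ, true_and]
    constructor
    · intro h
      have h2 : (j : ℝ) < (e' i : ℝ) + 1 := lt_of_mul_lt_mul_right (by linarith) hD.le
      exact Nat.lt_succ_iff.1 (by exact_mod_cast h2)
    · intro h
      have h2 : (j : ℝ) ≤ e' i := by exact_mod_cast h
      nlinarith
  have hsa : ∀ i, F.sa i ≤ F.Tb + F.N * P.D := by
    intro i
    show scaleOf P (e i) ≤ P.Tb + (gridN P : ℝ) * P.D
    have : (e i : ℝ) + 1 ≤ gridN P := by exact_mod_cast haN i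
    unfold scaleOf; nlinarith
  have hfree := hC F P.D z hP.Tb0.le hD (fun _ => rfl) (fun _ => rfl) hsa hz
  have hsweep := sweep (F := F) (f := f) hκ hf0 (i := ⟨0, ha⟩)
    (hf _ (Or.inl ⟨_, rfl⟩) hlo) hinv htop
  refine (hsweep.trans (mul_le_mul_of_nonneg_left hfree (by positivity))).trans ?_
  have hc : ((F.a + F.b + 1 : ℕ) : ℝ) ^ (F.a + F.b) ≤ exp ((a + b) * (2 * k)) := by
    show (((a + b + 1 : ℕ)) : ℝ) ^ (a + b) ≤ _
    have h1 : ((a + b + 1 : ℕ) : ℝ) ≤ exp (2 * k) := by
      push_cast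
      have := add_one_le_exp (2 * k)
      linarith
    calc ((a + b + 1 : ℕ) : ℝ) ^ (a + b) ≤ exp (2 * k) ^ (a + b) := by gcongr
      _ = exp ((a + b) * (2 * k)) := by rw [← exp_nat_mul]; push_cast; ring_nf
  refine (mul_le_mul_of_nonneg_right (mul_le_mul_of_nonneg_right hc (exp_pos _).le)
    (exp_pos _).le).trans ?_
  rw [← exp_add, ← exp_add]
  apply exp_le_exp.2
  simp only [hrow, hcol]
  have hbud : -∑ j ∈ range F.N, F.budget j * log (z j)
      = (1 + P.theta) * (P.D * ∑ j ∈ range (gridN P), (above e j : ℝ) * log (above e j)) := by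
    show -∑ j ∈ range (gridN P), (1 + P.theta) * P.D * (above e j : ℝ) * log (z j) = _
    rw [mul_sum, mul_sum, ← sum_neg_distrib]
    refine sum_congr rfl fun j _ => ?_
    rcases Nat.eq_zero_or_pos (above e j) with h0 | h0
    · simp [h0]
    · simp only [z, max_eq_left (Nat.one_le_iff_ne_zero.2 h0.ne'), one_div, log_inv]
      ring
  have hcolsum : ∑ j ∈ range F.N, (above e j : ℝ) * above e' j * z j * (P.D + C)
      ≤ (P.D + C) * ∑ i, ((e' i : ℝ) + 1) := by
    rw [← sum_above e' hbN, mul_sum]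
    refine sum_le_sum fun j _ => ?_
    have h1 : (above e j : ℝ) * z j ≤ 1 := by
      simp only [z]
      rw [mul_one_div, div_le_one (by positivity)]
      exact_mod_cast le_max_left _ 1
    calc (above e j : ℝ) * above e' j * z j * (P.D + C)
        = ((above e j : ℝ) * z j) * ((P.D + C) * above e' j) := by ring
      _ ≤ 1 * ((P.D + C) * above e' j) := by gcongr
      _ = _ := one_mul _
  have hent := sum_entropy e hanti haN
  rw [sum_sub_distrib, sum_above e haN] at hent
  have hnl : ∑ j ∈ range (gridN P), (above e j : ℝ) * log (above e j)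
      = ∑ i : Fin a, fordA i * ((e i : ℝ) + 1) + ∑ i, ((e i : ℝ) + 1) := by linarith
  have hscale : ∑ i : Fin a, fordA i * scaleOf P (e i)
      = P.Tb * (∑ i : Fin a, fordA i) + P.D * ∑ i : Fin a, fordA i * ((e i : ℝ) + 1) := by
    rw [mul_sum, mul_sum, ← sum_add_distrib]
    refine sum_congr rfl fun i _ => ?_
    unfold scaleOf; ring
  have hSA : ∑ i, F.sa i = (a : ℝ) * P.Tb + P.D * ∑ i, ((e i : ℝ) + 1) := by
    show ∑ i : Fin a, scaleOf P (e i) = _
    unfold scaleOf
    rw [sum_add_distrib, sum_const, card_univ, Fintype.card_fin, nsmul_eq_mul, mul_sum]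
    congr 1
    exact sum_congr rfl fun i _ => mul_comm _ _
  have hSB : ∑ i, F.sb i = (b : ℝ) * P.Tb + P.D * ∑ i, ((e' i : ℝ) + 1) := by
    show ∑ i : Fin b, scaleOf P (e' i) = _
    unfold scaleOf
    rw [sum_add_distrib, sum_const, card_univ, Fintype.card_fin, nsmul_eq_mul, mul_sum]
    congr 1
    exact sum_congr rfl fun i _ => mul_comm _ _
  have hslack' : ∑ i : Fin a, fordA i * scaleOf P (e i) ≤ -(P.eta * P.L) + k ^ 2 * P.D := hslack
  have hfa : |∑ i : Fin a, fordA i| ≤ k ^ 2 := by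
    refine (abs_sum_le_sum_abs _ _).trans ((sum_le_sum (g := fun _ : Fin a => k) fun i _ => ?_).trans ?_)
    · refine (abs_fordA_le _).trans ?_
      have : ((i : ℕ) : ℝ) ≤ (a : ℝ) := by exact_mod_cast i.isLt.le
      linarith
    · rw [sum_const, card_univ, Fintype.card_fin, nsmul_eq_mul, sq]
      gcongr
      linarith
  have hE' : ∑ i, ((e' i : ℝ) + 1) ≤ k * gridN P := by
    refine (sum_le_sum (g := fun _ => (gridN P : ℝ)) fun i _ => ?_).trans ?_
    · exact_mod_cast hbN i
    · rw [sum_const, card_univ, Fintype.card_fin, nsmul_eq_mul]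
      gcongr
      linarith
  have hnl2 : ∑ j ∈ range (gridN P), (above e j : ℝ) * log (above e j) ≤ (gridN P : ℝ) * k ^ 2 := by
    refine (sum_le_sum (g := fun _ => k ^ 2) fun j _ => ?_).trans ?_
    · have h1 : (above e j : ℝ) ≤ k := by
        have : above e j ≤ a := (card_le_univ _).trans_eq (Fintype.card_fin a)
        have : (above e j : ℝ) ≤ a := by exact_mod_cast this
        linarith
      rw [sq]
      exact mul_le_mul h1 ((log_natCast_le_self _).trans h1) (log_natCast_nonneg _)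
        (by linarith [(Nat.cast_nonneg P.K' : (0 : ℝ) ≤ P.K')])
    · rw [sum_const, card_range, nsmul_eq_mul]
  have hθ : 0 ≤ P.theta := by unfold Params.theta; positivity
  have hTs : -(P.Tb * ∑ i : Fin a, fordA i) ≤ P.Tb * k ^ 2 := by
    have := mul_le_mul_of_nonneg_left (neg_le_of_abs_le hfa) hP.Tb0.le
    linarith
  have hθt : P.theta * (P.D * ∑ j ∈ range (gridN P), (above e j : ℝ) * log (above e j))
      ≤ P.theta * (gridN P * P.D) * k ^ 2 := by
    have := mul_le_mul_of_nonneg_left (mul_le_mul_of_nonneg_left hnl2 hD.le) hθ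
    linarith
  have hmain : (P.D * ∑ j ∈ range (gridN P), (above e j : ℝ) * log (above e j))
      = P.D * (∑ i : Fin a, fordA i * ((e i : ℝ) + 1)) + P.D * ∑ i, ((e i : ℝ) + 1) := by
    rw [hnl, mul_add]
  have hCm : C * ∑ i, ((e' i : ℝ) + 1) ≤ C * (k * gridN P) := mul_le_mul_of_nonneg_left hE' hC0
  have hab : ((a : ℝ) + b) * (2 * k + κ) ≤ 2 * k * (2 * k + κ) := by
    gcongr; linarith
  have hcells : (((F.a + 1) * (F.b + 1) : ℕ) : ℝ) * (F.Tb + C) ≤ k ^ 2 * (P.Tb + C) := by
    show (((a + 1) * (b + 1) : ℕ) : ℝ) * (P.Tb + C) ≤ _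
    have := hP.Tb0
    push_cast
    rw [sq]
    gcongr
  have hTbab : 0 ≤ ((a : ℝ) + b) * P.Tb := by have := hP.Tb0; positivity
  have hk2 : 0 ≤ k ^ 2 * P.D := by positivity
  push_cast at hcells ⊢
  rw [hbud, hSA, hSB]
  have hFa : (F.a : ℝ) = (a : ℝ) := rfl
  have hFb : (F.b : ℝ) = (b : ℝ) := rfl
  rw [hFa, hFb] at hcells ⊢
  linarith

theorem card_sig_le (P : Params) :
    (Fintype.card (Sig P) : ℝ) ≤ exp (2 * ((P.K' : ℝ) + 1) + 2 * (P.K' : ℝ) * log (gridN P)) := by
  have hN : (1 : ℝ) ≤ gridN P := by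
    unfold gridN; push_cast; linarith [(Nat.cast_nonneg P.J : (0:ℝ) ≤ P.J)]
  have h : (Fintype.card (Σ a : Fin (P.K' + 1), Fin a → Fin (gridN P)) : ℝ)
      ≤ ((P.K' : ℝ) + 1) * (gridN P : ℝ) ^ P.K' := by
    rw [Fintype.card_sigma]
    push_cast
    simp only [Fintype.card_fun, Fintype.card_fin, Nat.cast_pow]
    refine (sum_le_sum (g := fun _ => (gridN P : ℝ) ^ P.K') fun a _ => ?_).trans ?_
    · exact pow_le_pow_right₀ hN (Nat.le_of_lt_succ a.isLt)
    · rw [sum_const, card_univ, Fintype.card_fin, nsmul_eq_mul]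
      push_cast; rfl
  have h1 : ((P.K' : ℝ) + 1) * (gridN P : ℝ) ^ P.K' ≤ exp ((P.K' : ℝ) + 1 + P.K' * log (gridN P)) := by
    rw [exp_add, exp_nat_mul, exp_log (by linarith)]
    gcongr
    linarith [add_one_le_exp ((P.K' : ℝ) + 1)]
  rw [Fintype.card_prod]
  push_cast
  refine (mul_le_mul (h.trans h1) (h.trans h1) (Nat.cast_nonneg _) (exp_pos _).le).trans ?_
  rw [← exp_add]
  apply exp_le_exp.2
  linarith

end Collision

end Vale.Agent.P031
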