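import Vale.Agent.P031.Defs

/-!
# P031 Q2, section 7: the sweep over a factor matrix

Rows and columns of a matrix of natural numbers stand for the residual primes of the two
representations; a resolved line no longer carries a primality condition. Each step removes the
prime of the largest unresolved line from its cell and pays the sieve bound for it.
-/

open scoped Classical
noncomputable section

namespace Vale.Agent.P031.Collision

open Finset

theorem omegaIoc_mul (a b : ℝ) {m n : ℕ} (hm : m ≠ 0) (hn : n ≠ 0) :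
    omegaIoc a b (m * n) = omegaIoc a b m + omegaIoc a b n := by
  unfold omegaIoc
  rw [((Nat.perm_primeFactorsList_mul hm hn).filter _).length_eq, List.filter_append,
    List.length_append]

theorem omegaIoc_le_of_dvd (a b : ℝ) {m n : ℕ} (hn : n ≠ 0) (h : m ∣ n) :
    omegaIoc a b m ≤ omegaIoc a b n := by
  obtain ⟨c, rfl⟩ := h
  obtain ⟨hm, hc⟩ := mul_ne_zero_iff.1 hn
  rw [omegaIoc_mul a b hm hc]
  exact Nat.le_add_right _ _

theorem lam_le_lam_of_le {m n : ℕ} (hm : 2 ≤ m) (h : m ≤ n) : lam m ≤ lam n := by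
  have h2 : (2 : ℝ) ≤ m := by exact_mod_cast hm
  have h3 : (m : ℝ) ≤ n := by exact_mod_cast h
  exact Real.log_le_log (Real.log_pos (by linarith)) (Real.log_le_log (by linarith) h3)

/-- The data of a sweep. -/
structure Frame where
  /-- number of row primes -/
  a : ℕ
  /-- number of column primes -/
  b : ℕ
  sa : Fin a → ℝ
  sb : Fin b → ℝ
  /-- width of a scale class -/
  width : ℝ
  /-- loss from a prime to the largest prime factor of its predecessor -/
  rho : ℝ
  Tb : ℝ
  /-- size bound for the cells -/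
  M : ℕ
  /-- the intervals carrying a budget -/
  N : ℕ
  lo : ℕ → ℝ
  hi : ℕ → ℝ
  budget : ℕ → ℝ

namespace Frame

variable (F : Frame)

/-- Matrices of the frame. -/
abbrev Mat := Fin (F.a + 1) → Fin (F.b + 1) → ℕ

/-- Scale allowed in a row. -/
def rowCap : Fin (F.a + 1) → ℝ := Fin.lastCases F.Tb F.sa

/-- Scale allowed in a column. -/
def colCap : Fin (F.b + 1) → ℝ := Fin.lastCases F.Tb F.sb

def rowProd (w : F.Mat) (i : Fin (F.a + 1)) : ℕ := ∏ k, w i k

def colProd (w : F.Mat) (k : Fin (F.b + 1)) : ℕ := ∏ i, w i k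

def total (w : F.Mat) : ℕ := ∏ i, ∏ k, w i k

/-- Conditions kept by every matrix. -/
def Base (w : F.Mat) : Prop :=
  (∀ i k, w i k ≠ 0 ∧ w i k ≤ F.M) ∧
  (∀ i k, ∀ r : ℕ, r.Prime → r ∣ w i k → lam (r : ℝ) ≤ min (F.rowCap i) (F.colCap k)) ∧
  (∀ j < F.N, (omegaIoc (F.lo j) (F.hi j) (F.total w) : ℝ) ≤ F.budget j)

/-- A line product one less than a prime of the given scale with a large prime factor. -/
def LineOK (s : ℝ) (P : ℕ) : Prop :=
  (P + 1).Prime ∧ s - F.width ≤ lam ((P + 1 : ℕ) : ℝ) ∧ lam ((P + 1 : ℕ) : ℝ) ≤ s ∧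
    ∃ r : ℕ, r.Prime ∧ r ∣ P ∧ lam ((P + 1 : ℕ) : ℝ) - F.rho ≤ lam (r : ℝ)

/-- Admissible matrices with the given unresolved lines. -/
def Adm (Ua : Finset (Fin F.a)) (Ub : Finset (Fin F.b)) : Finset F.Mat :=
  (Fintype.piFinset fun _ => Fintype.piFinset fun _ => Finset.range (F.M + 1)).filter
    fun w => F.Base w ∧ (∀ i ∈ Ua, F.LineOK (F.sa i) (F.rowProd w i.castSucc)) ∧
      (∀ k ∈ Ub, F.LineOK (F.sb k) (F.colProd w k.castSucc)) ∧
      (∀ i ∈ Ua, ∀ k ∈ Ub, F.rowProd w i.castSucc ≠ F.colProd w k.castSucc)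

theorem mem_Adm {Ua : Finset (Fin F.a)} {Ub : Finset (Fin F.b)} {w : F.Mat} :
    w ∈ F.Adm Ua Ub ↔ F.Base w ∧ (∀ i ∈ Ua, F.LineOK (F.sa i) (F.rowProd w i.castSucc)) ∧
      (∀ k ∈ Ub, F.LineOK (F.sb k) (F.colProd w k.castSucc)) ∧
      (∀ i ∈ Ua, ∀ k ∈ Ub, F.rowProd w i.castSucc ≠ F.colProd w k.castSucc) := by
  unfold Adm
  rw [mem_filter, and_iff_right_iff_imp]
  intro h
  refine Fintype.mem_piFinset.2 fun i => Fintype.mem_piFinset.2 fun k => ?_
  exact mem_range.2 (Nat.lt_succ_of_le (h.1.1 i k).2)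

/-- Candidate primes of one step, one partner. -/
def Cand1 (s : ℝ) (A r : ℕ) : Prop :=
  r.Prime ∧ s - F.width - F.rho - 1 < lam (r : ℝ) ∧ lam (r : ℝ) ≤ s ∧
    (A * r + 1).Prime ∧ lam ((A * r + 1 : ℕ) : ℝ) ≤ s

/-- The scales of the frame. -/
def IsScale (s : ℝ) : Prop := (∃ i, s = F.sa i) ∨ (∃ k, s = F.sb k)

/-- The sieve bounds used by one step at scale `s` for the weight `f`. -/
def StepAt (s : ℝ) (f : ℕ → ℝ) (κ : ℝ) : Prop :=
  ∀ A M : ℕ, 0 < A → 0 < M →
    ∀ S : Finset ℕ, (∀ r ∈ S, F.Cand1 s A r) →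
      (∑ r ∈ S, f (r * M) ≤ Real.exp (κ - s) / M) ∧
      ∀ B : ℕ, 0 < B → A ≠ B →
        (∀ r ∈ S, (B * r + 1).Prime ∧ lam ((B * r + 1 : ℕ) : ℝ) ≤ s) →
        ∑ r ∈ S, f (r * M) ≤ Real.exp (κ - 2 * s) / M

/-- The sieve bounds at every scale of the frame. -/
def StepBound (f : ℕ → ℝ) (κ : ℝ) : Prop := ∀ s : ℝ, F.IsScale s → F.StepAt s f κ

/-- The saving attached to a set of unresolved lines. -/
def saving (Ua : Finset (Fin F.a)) (Ub : Finset (Fin F.b)) : ℝ :=
  ∑ i ∈ Ua, F.sa i + ∑ k ∈ Ub, F.sb k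

/-- The sum over matrices with no condition left. -/
def free : ℝ := ∑ w ∈ F.Adm ∅ ∅, 1 / (F.total w : ℝ)

theorem free_nonneg : 0 ≤ F.free := sum_nonneg fun _ _ => by positivity

/-- Exchange rows and columns. -/
def swap : Frame :=
  { F with a := F.b, b := F.a, sa := F.sb, sb := F.sa }

theorem swap_swap : F.swap.swap = F := rfl

def transpose (w : F.Mat) : F.swap.Mat := fun k i => w i k

theorem rowProd_transpose (w : F.Mat) (k : Fin (F.b + 1)) :
    F.swap.rowProd (F.transpose w) k = F.colProd w k := rfl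

theorem colProd_transpose (w : F.Mat) (i : Fin (F.a + 1)) :
    F.swap.colProd (F.transpose w) i = F.rowProd w i := rfl

theorem total_transpose (w : F.Mat) : F.swap.total (F.transpose w) = F.total w :=
  Finset.prod_comm

theorem base_transpose {w : F.Mat} (h : F.Base w) : F.swap.Base (F.transpose w) := by
  refine ⟨fun k i => h.1 i k, fun k i r hr hd => ?_, fun j hj => ?_⟩
  · exact (h.2.1 i k r hr hd).trans_eq (min_comm _ _)
  · rw [F.total_transpose w]; exact h.2.2 j hj

theorem sum_swap (Ua : Finset (Fin F.a)) (Ub : Finset (Fin F.b)) (f : ℕ → ℝ) :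
    ∑ w ∈ F.Adm Ua Ub, f (F.total w) = ∑ w ∈ F.swap.Adm Ub Ua, f (F.swap.total w) := by
  refine Finset.sum_nbij' F.transpose F.swap.transpose ?_ ?_ (fun _ _ => rfl) (fun _ _ => rfl) ?_
  · intro w hw
    obtain ⟨hb, hr, hc, hd⟩ := F.mem_Adm.1 hw
    exact F.swap.mem_Adm.2 ⟨F.base_transpose hb, hc, hr, fun k hk i hi => (hd i hi k hk).symm⟩
  · intro w hw
    obtain ⟨hb, hr, hc, hd⟩ := F.swap.mem_Adm.1 hw
    exact F.mem_Adm.2 ⟨F.swap.base_transpose hb, hc, hr, fun k hk i hi => (hd i hi k hk).symm⟩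
  · intro w _
    rw [F.total_transpose w]

theorem free_swap : F.swap.free = F.free := (F.sum_swap ∅ ∅ (fun n => 1 / (n : ℝ))).symm

theorem saving_swap (Ua : Finset (Fin F.a)) (Ub : Finset (Fin F.b)) :
    F.swap.saving Ub Ua = F.saving Ua Ub := add_comm _ _

theorem stepBound_swap {f : ℕ → ℝ} {κ : ℝ} (h : F.StepBound f κ) : F.swap.StepBound f κ :=
  fun s hs => h s (Or.symm hs)

section put

variable (w : F.Mat) (i : Fin (F.a + 1)) (k : Fin (F.b + 1))

/-- Multiply one cell. -/
def put (r : ℕ) : F.Mat := Function.update w i (Function.update (w i) k (w i k * r))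

/-- Divide one cell. -/
def take (r : ℕ) : F.Mat := Function.update w i (Function.update (w i) k (w i k / r))

theorem put_take {r : ℕ} (h : r ∣ w i k) : F.put (F.take w i k r) i k r = w := by
  unfold put take
  funext i' k'
  by_cases hi : i' = i
  · subst hi
    by_cases hk : k' = k
    · subst hk; simp [Nat.div_mul_cancel h]
    · simp [hk]
  · simp [hi]

theorem put_apply (r : ℕ) (i' : Fin (F.a + 1)) (k' : Fin (F.b + 1)) :
    F.put w i k r i' k' = w i' k' * (if i' = i then (if k' = k then r else 1) else 1) := by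
  unfold put
  by_cases hi : i' = i
  · subst hi
    by_cases hk : k' = k
    · subst hk; simp
    · simp [hk]
  · simp [hi]

theorem rowProd_put (r : ℕ) (i' : Fin (F.a + 1)) :
    F.rowProd (F.put w i k r) i' = F.rowProd w i' * (if i' = i then r else 1) := by
  unfold rowProd
  simp only [put_apply, prod_mul_distrib]
  congr 1
  by_cases hi : i' = i
  · simp [hi]
  · simp [hi]

theorem colProd_put (r : ℕ) (k' : Fin (F.b + 1)) :
    F.colProd (F.put w i k r) k' = F.colProd w k' * (if k' = k then r else 1) := by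
  unfold colProd
  simp only [put_apply, prod_mul_distrib]
  congr 1
  simp

theorem total_put (r : ℕ) : F.total (F.put w i k r) = F.total w * r := by
  show ∏ i', F.rowProd (F.put w i k r) i' = (∏ i', F.rowProd w i') * r
  simp only [rowProd_put, prod_mul_distrib]
  simp

end put

theorem total_ne_zero {w : F.Mat} (h : F.Base w) : F.total w ≠ 0 :=
  prod_ne_zero_iff.2 fun i _ => prod_ne_zero_iff.2 fun k _ => (h.1 i k).1

/-- The columns left unresolved after a step at column `k`. -/
def dropCol (Ub : Finset (Fin F.b)) (k : Fin (F.b + 1)) : Finset (Fin F.b) :=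
  Ub.filter fun k' => k'.castSucc ≠ k

/-- One step, from a row of the largest scale. -/
theorem row_step {f : ℕ → ℝ} {κ : ℝ} (hf0 : ∀ n, 0 ≤ f n)
    {Ua : Finset (Fin F.a)} {Ub : Finset (Fin F.b)} {i : Fin F.a} (hf : F.StepAt (F.sa i) f κ)
    (hi : i ∈ Ua)
    (hmax : ∀ k ∈ Ub, F.sb k ≤ F.sa i) :
    ∑ w ∈ F.Adm Ua Ub, f (F.total w) ≤
      ∑ k : Fin (F.b + 1),
        Real.exp (κ - (F.saving Ua Ub - F.saving (Ua.erase i) (F.dropCol Ub k))) *
          ∑ w ∈ F.Adm (Ua.erase i) (F.dropCol Ub k), 1 / (F.total w : ℝ) := by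
  set s := F.sa i with hs
  set i₀ := i.castSucc with hi₀
  let Cand : Fin (F.b + 1) → F.Mat → Finset ℕ := fun k w =>
    (range (F.M + 1)).filter fun r => F.Cand1 s (F.rowProd w i₀) r ∧
      ∀ k' ∈ Ub, k'.castSucc = k → F.rowProd w i₀ ≠ F.colProd w k ∧
        (F.colProd w k * r + 1).Prime ∧ lam ((F.colProd w k * r + 1 : ℕ) : ℝ) ≤ s
  let T : Finset ((_ : Fin (F.b + 1)) × (_ : F.Mat) × ℕ) :=
    univ.sigma fun k => (F.Adm (Ua.erase i) (F.dropCol Ub k)).sigma fun w => Cand k w
  let g : ((_ : Fin (F.b + 1)) × (_ : F.Mat) × ℕ) → ℝ := fun z => f (z.2.2 * F.total z.2.1)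
  have key : ∀ w ∈ F.Adm Ua Ub, ∃ z ∈ T, F.put z.2.1 i₀ z.1 z.2.2 = w := by
    intro w hw
    obtain ⟨hb, hr, hc, hd⟩ := F.mem_Adm.1 hw
    obtain ⟨hp, hlo, hhi, r, hrp, hrd, hrl⟩ := hr i hi
    obtain ⟨k, -, hk⟩ := hrp.prime.exists_mem_finset_dvd hrd
    set w' := F.take w i₀ k r with hw'
    have hput : F.put w' i₀ k r = w := F.put_take w i₀ k hk
    have hcell : ∀ i' k', w' i' k' ∣ w i' k' := by
      intro i' k'
      rw [← hput, put_apply]
      exact dvd_mul_right _ _
    have hw0 : ∀ i' k', w' i' k' ≠ 0 := by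
      intro i' k' h0
      exact (hb.1 i' k').1 (Nat.eq_zero_of_zero_dvd (h0 ▸ hcell i' k'))
    have hb' : F.Base w' := by
      refine ⟨fun i' k' => ⟨hw0 i' k',
          (Nat.le_of_dvd (Nat.pos_of_ne_zero (hb.1 i' k').1) (hcell i' k')).trans (hb.1 i' k').2⟩,
        fun i' k' p hp hpd => hb.2.1 i' k' p hp (hpd.trans (hcell i' k')), fun j hj => ?_⟩
      refine le_trans ?_ (hb.2.2 j hj)
      exact_mod_cast omegaIoc_le_of_dvd _ _ (F.total_ne_zero hb)
        (prod_dvd_prod_of_dvd _ _ fun i' _ => prod_dvd_prod_of_dvd _ _ fun k' _ => hcell i' k')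
    have hrow : ∀ i' : Fin F.a, i' ≠ i → F.rowProd w i'.castSucc = F.rowProd w' i'.castSucc := by
      intro i' hne
      rw [← hput, rowProd_put, if_neg (fun h => hne (Fin.castSucc_injective _ h)), mul_one]
    have hcol : ∀ k' : Fin F.b, k'.castSucc ≠ k →
        F.colProd w k'.castSucc = F.colProd w' k'.castSucc := by
      intro k' hne
      rw [← hput, colProd_put, if_neg hne, mul_one]
    have hA : F.rowProd w i₀ = F.rowProd w' i₀ * r := by
      rw [← hput, rowProd_put, if_pos rfl]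
    have hB : F.colProd w k = F.colProd w' k * r := by
      rw [← hput, colProd_put, if_pos rfl]
    refine ⟨⟨k, w', r⟩, ?_, hput⟩
    refine mem_sigma.2 ⟨mem_univ _, mem_sigma.2 ⟨?_, ?_⟩⟩
    · refine F.mem_Adm.2 ⟨hb', fun i' hi' => ?_, fun k' hk' => ?_, fun i' hi' k' hk' => ?_⟩
      · obtain ⟨hne, hmem⟩ := mem_erase.1 hi'
        rw [← hrow i' hne]; exact hr i' hmem
      · obtain ⟨hmem, hne⟩ := mem_filter.1 hk'
        rw [← hcol k' hne]; exact hc k' hmem
      · obtain ⟨hne, hmem⟩ := mem_erase.1 hi'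
        obtain ⟨hmem', hne'⟩ := mem_filter.1 hk'
        rw [← hrow i' hne, ← hcol k' hne']
        exact hd i' hmem k' hmem'
    · have hr2 := hrp.two_le
      have hrM : r ≤ F.M :=
        (Nat.le_of_dvd (Nat.pos_of_ne_zero (hb.1 i₀ k).1) hk).trans (hb.1 i₀ k).2
      have hA0 : 0 < F.rowProd w i₀ := prod_pos fun k' _ => Nat.pos_of_ne_zero (hb.1 i₀ k').1
      have hrle : lam (r : ℝ) ≤ lam ((F.rowProd w i₀ + 1 : ℕ) : ℝ) :=
        lam_le_lam_of_le hr2 ((Nat.le_of_dvd hA0 hrd).trans (Nat.le_succ _))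
      refine mem_filter.2 ⟨mem_range.2 (Nat.lt_succ_of_le hrM), ⟨hrp, ?_, ?_, ?_, ?_⟩, ?_⟩
      · linarith
      · linarith
      · rw [← hA]; exact hp
      · rw [← hA]; exact hhi
      · intro k' hk' hkk
        obtain ⟨hp', -, hhi', -⟩ := hc k' hk'
        rw [hkk] at hp' hhi'
        refine ⟨?_, ?_, ?_⟩
        · intro hEq
          exact hd i hi k' hk' (by rw [hkk, ← hi₀, hA, hB, hEq])
        · rw [← hB]; exact hp'
        · rw [← hB]; exact hhi'.trans (hmax k' hk')
  choose z hzT hz using key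
  have hinj : Function.Injective fun w : F.Adm Ua Ub => z w.1 w.2 := by
    intro w₁ w₂ h
    apply Subtype.ext
    rw [← hz w₁.1 w₁.2, ← hz w₂.1 w₂.2, show z w₁.1 w₁.2 = z w₂.1 w₂.2 from h]
  calc ∑ w ∈ F.Adm Ua Ub, f (F.total w)
      = ∑ w : F.Adm Ua Ub, g (z w.1 w.2) := by
        rw [← Finset.sum_coe_sort]
        refine sum_congr rfl fun w _ => ?_
        rw [show F.total w.1 = F.total (F.put (z w.1 w.2).2.1 i₀ (z w.1 w.2).1 (z w.1 w.2).2.2)
          by rw [hz w.1 w.2], total_put, mul_comm]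
    _ = ∑ x ∈ univ.image (fun w : F.Adm Ua Ub => z w.1 w.2), g x :=
        (sum_image (fun a _ b _ h => hinj h)).symm
    _ ≤ ∑ x ∈ T, g x := by
        refine sum_le_sum_of_subset_of_nonneg ?_ (fun x _ _ => hf0 _)
        intro x hx
        obtain ⟨w, -, rfl⟩ := mem_image.1 hx
        exact hzT w.1 w.2
    _ ≤ _ := by
        rw [sum_sigma]
        refine sum_le_sum fun k _ => ?_
        rw [sum_sigma, mul_sum]
        refine sum_le_sum fun w hw => ?_
        obtain ⟨hb, -, -, -⟩ := F.mem_Adm.1 hw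
        have hA0 : 0 < F.rowProd w i₀ :=
          prod_pos fun k' _ => Nat.pos_of_ne_zero (hb.1 i₀ k').1
        have hM0 : 0 < F.total w := Nat.pos_of_ne_zero (F.total_ne_zero hb)
        have hS := hf (F.rowProd w i₀) (F.total w) hA0 hM0 (Cand k w)
          (fun r hr => ((mem_filter.1 hr).2).1)
        rw [mul_one_div]
        have hsave : F.saving Ua Ub - F.saving (Ua.erase i) (F.dropCol Ub k)
            = s + ∑ k' ∈ Ub.filter (fun k' => k'.castSucc = k), F.sb k' := by
          unfold saving dropCol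
          rw [← sum_erase_add _ _ hi, ← sum_filter_add_sum_filter_not Ub (fun k' => k'.castSucc = k),
            ← hs]
          ring
        rw [hsave]
        by_cases hk : ∃ k' ∈ Ub, k'.castSucc = k
        · obtain ⟨k', hk', rfl⟩ := hk
          have hf' : Ub.filter (fun x => x.castSucc = k'.castSucc) = {k'} := by
            ext x
            simp only [mem_filter, mem_singleton]
            exact ⟨fun h => Fin.castSucc_injective _ h.2, fun h => by subst h; exact ⟨hk', rfl⟩⟩
          rw [hf', sum_singleton]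
          rcases (Cand k'.castSucc w).eq_empty_or_nonempty with hC | ⟨r₀, hr₀⟩
          · rw [hC, sum_empty]
            positivity
          have hne := ((mem_filter.1 hr₀).2.2 k' hk' rfl).1
          refine le_trans (hS.2 _ (prod_pos fun i' _ => Nat.pos_of_ne_zero (hb.1 i' _).1) hne
            fun r hr => ((mem_filter.1 hr).2.2 k' hk' rfl).2) ?_
          gcongr
          linarith [hmax k' hk']
        · have hf' : Ub.filter (fun x => x.castSucc = k) = ∅ := by
            rw [filter_eq_empty_iff]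
            exact fun x hx h => hk ⟨x, hx, h⟩
          rw [hf', sum_empty, add_zero]
          exact hS.1

end Frame

/-- The sweep for the weight one over the value. -/
theorem sweep_inv : ∀ (n : ℕ) (F : Frame) (κ : ℝ), 0 ≤ κ →
    F.StepBound (fun v => 1 / (v : ℝ)) κ →
    ∀ (Ua : Finset (Fin F.a)) (Ub : Finset (Fin F.b)), Ua.card + Ub.card = n →
      ∑ w ∈ F.Adm Ua Ub, 1 / (F.total w : ℝ) ≤
        ((F.a + F.b + 1 : ℕ) : ℝ) ^ n * Real.exp (n * κ - F.saving Ua Ub) * F.free := by
  intro n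
  induction n using Nat.strong_induction_on with
  | h n ih =>
  have main : ∀ (F : Frame) (κ : ℝ), 0 ≤ κ → F.StepBound (fun v => 1 / (v : ℝ)) κ →
      ∀ (Ua : Finset (Fin F.a)) (Ub : Finset (Fin F.b)), Ua.card + Ub.card = n →
      ∀ i ∈ Ua, (∀ k ∈ Ub, F.sb k ≤ F.sa i) →
      ∑ w ∈ F.Adm Ua Ub, 1 / (F.total w : ℝ) ≤
        ((F.a + F.b + 1 : ℕ) : ℝ) ^ n * Real.exp (n * κ - F.saving Ua Ub) * F.free := by
    intro F κ hκ hst Ua Ub hn i hi hmax
    refine (F.row_step (fun v => by positivity) (hst _ (Or.inl ⟨i, rfl⟩)) hi hmax).trans ?_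
    obtain ⟨n', rfl⟩ : ∃ n', n = n' + 1 :=
      ⟨n - 1, by have := card_pos.2 ⟨i, hi⟩; omega⟩
    set c : ℝ := ((F.a + F.b + 1 : ℕ) : ℝ) with hc
    have hc1 : 1 ≤ c := by rw [hc]; exact_mod_cast Nat.le_add_left 1 _
    calc _ ≤ ∑ _k : Fin (F.b + 1),
          c ^ n' * Real.exp (((n' + 1 : ℕ) : ℝ) * κ - F.saving Ua Ub) * F.free := by
          refine sum_le_sum fun k _ => ?_
          have hm : (Ua.erase i).card + (F.dropCol Ub k).card ≤ n' := by
            have h1 : (F.dropCol Ub k).card ≤ Ub.card := card_filter_le _ _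
            rw [card_erase_of_mem hi]
            have := card_pos.2 ⟨i, hi⟩
            omega
          refine (mul_le_mul_of_nonneg_left
            (ih _ (Nat.lt_succ_of_le hm) F κ hκ hst _ _ rfl) (Real.exp_pos _).le).trans ?_
          rw [← mul_assoc, ← mul_assoc, mul_comm (Real.exp _) (c ^ _), mul_assoc (c ^ _),
            ← Real.exp_add]
          gcongr
          · exact F.free_nonneg
          · have : (((Ua.erase i).card + (F.dropCol Ub k).card : ℕ) : ℝ) ≤ n' := by
              exact_mod_cast hm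
            have h2 := mul_le_mul_of_nonneg_right this hκ
            push_cast at h2 ⊢
            linarith
      _ ≤ _ := by
          rw [sum_const, card_univ, Fintype.card_fin, nsmul_eq_mul, pow_succ', mul_assoc c,
            mul_assoc c]
          refine mul_le_mul_of_nonneg_right ?_ (by have := F.free_nonneg; positivity)
          rw [hc]
          exact_mod_cast (by omega : F.b + 1 ≤ F.a + F.b + 1)
  intro F κ hκ hst Ua Ub hn
  rcases Nat.eq_zero_or_pos n with rfl | hpos
  · have ha : Ua = ∅ := card_eq_zero.1 (by omega)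
    have hb : Ub = ∅ := card_eq_zero.1 (by omega)
    subst ha hb
    simp [Frame.saving, Frame.free]
  by_cases hrow : ∃ i ∈ Ua, ∀ k ∈ Ub, F.sb k ≤ F.sa i
  · obtain ⟨i, hi, hmax⟩ := hrow
    exact main F κ hκ hst Ua Ub hn i hi hmax
  push Not at hrow
  have hUb : Ub.Nonempty := by
    by_contra h
    rw [not_nonempty_iff_eq_empty] at h
    subst h
    obtain ⟨i, hi⟩ : Ua.Nonempty := card_pos.1 (by simp at hn; omega)
    obtain ⟨k, hk, -⟩ := hrow i hi
    simp at hk
  obtain ⟨k, hk, hkmax⟩ := exists_max_image Ub F.sb hUb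
  have hmax : ∀ i ∈ Ua, F.sa i ≤ F.sb k := by
    intro i hi
    obtain ⟨k', hk', h⟩ := hrow i hi
    exact h.le.trans (hkmax k' hk')
  have h := main F.swap κ hκ (F.stepBound_swap hst) Ub Ua ((add_comm _ _).trans hn) k hk hmax
  rw [F.free_swap, F.saving_swap Ua Ub] at h
  rw [F.sum_swap Ua Ub (fun v => 1 / (v : ℝ))]
  have hab : F.swap.a + F.swap.b + 1 = F.a + F.b + 1 := by
    show F.b + F.a + 1 = _
    omega
  rwa [hab] at h

/-- The sweep for a weight satisfying the step bound: all lines start unresolved. -/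
theorem sweep {F : Frame} {f : ℕ → ℝ} {κ : ℝ} (hκ : 0 ≤ κ) (hf0 : ∀ v, 0 ≤ f v) {i : Fin F.a}
    (hf : F.StepAt (F.sa i) f κ) (hinv : F.StepBound (fun v => 1 / (v : ℝ)) κ)
    (hmax : ∀ k, F.sb k ≤ F.sa i) :
    ∑ w ∈ F.Adm univ univ, f (F.total w) ≤
      ((F.a + F.b + 1 : ℕ) : ℝ) ^ (F.a + F.b) *
        Real.exp ((F.a + F.b : ℕ) * κ - (∑ j, F.sa j + ∑ k, F.sb k)) * F.free := by
  refine (F.row_step hf0 hf (mem_univ i) (fun k _ => hmax k)).trans ?_
  obtain ⟨n', hn'⟩ : ∃ n', F.a + F.b = n' + 1 :=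
    ⟨F.a + F.b - 1, by have := i.isLt; omega⟩
  set c : ℝ := ((F.a + F.b + 1 : ℕ) : ℝ) with hc
  have hc1 : 1 ≤ c := by rw [hc]; exact_mod_cast Nat.le_add_left 1 _
  calc _ ≤ ∑ _k : Fin (F.b + 1),
        c ^ n' * Real.exp (((F.a + F.b : ℕ) : ℝ) * κ - F.saving univ univ) * F.free := by
        refine sum_le_sum fun k _ => ?_
        have hm : ((univ : Finset (Fin F.a)).erase i).card + (F.dropCol univ k).card ≤ n' := by
          have h1 : (F.dropCol univ k).card ≤ F.b :=
            (card_filter_le _ _).trans_eq (by simp)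
          rw [card_erase_of_mem (mem_univ i)]
          simp only [card_univ, Fintype.card_fin]
          have := i.isLt
          omega
        refine (mul_le_mul_of_nonneg_left
          (sweep_inv _ F κ hκ hinv _ _ rfl) (Real.exp_pos _).le).trans ?_
        rw [← mul_assoc, ← mul_assoc, mul_comm (Real.exp _) (c ^ _), mul_assoc (c ^ _),
          ← Real.exp_add]
        gcongr
        · exact F.free_nonneg
        · have : ((((univ : Finset (Fin F.a)).erase i).card + (F.dropCol univ k).card : ℕ) : ℝ)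
              ≤ n' := by exact_mod_cast hm
          have h2 := mul_le_mul_of_nonneg_right this hκ
          rw [hn']
          push_cast at h2 ⊢
          linarith
    _ ≤ _ := by
        rw [sum_const, card_univ, Fintype.card_fin, nsmul_eq_mul]
        nth_rewrite 2 [hn']
        rw [pow_succ', mul_assoc c, mul_assoc c]
        refine mul_le_mul_of_nonneg_right ?_ (by have := F.free_nonneg; positivity)
        rw [hc]
        exact_mod_cast (by omega : F.b + 1 ≤ F.a + F.b + 1)

end Vale.Agent.P031.Collision
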